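import Vale.Agent.P088.R2.H644.N.PkS

/-!
# P088, stage 3: crude bounds of all slot quantities of the weight of the package

`b0_gen`: `B0` with all sizes `N + G` on `√c < r < A`, `c`, `A` functions of the constants before
`M₀`.
-/

open Set Filter
open scoped ContDiff Topology Matrix

noncomputable section

namespace Vale.Agent.P088.R2.H644.Sy

open Vale.Agent.P088.R2.H961.GW

variable {E ι κ : Type*} [NormedAddCommGroup E] [NormedSpace ℝ E] [Fintype ι] [Fintype κ]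
  {σ : Sl E ι} {τ : Sl E κ} {W : E → ℝ} {z : E} {C C' C₁ m m' k k' δ δ' : ℝ}

/-- Larger sizes. -/
theorem B0.le (b : B0 σ τ W z C m k δ) (h1 : 1 ≤ C₁) (hm : m ≤ C₁ * m') (hk : k ≤ C₁ * k')
    (hd : δ ≤ C₁ * δ') (m0 : 0 ≤ m') (k0 : 0 ≤ k') (d0 : 0 ≤ δ') (d1 : δ' ≤ 1)
    (hC : C * C₁ ≤ C') : B0 σ τ W z C' m' k' δ' := by
  have hC0 := b.C0
  have hC' : C ≤ C' := by nlinarith
  have am : C * m ≤ C' * m' := by
    calc C * m ≤ C * (C₁ * m') := mul_le_mul_of_nonneg_left hm hC0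
      _ = C * C₁ * m' := by ring
      _ ≤ _ := mul_le_mul_of_nonneg_right hC m0
  have ak : C * k ≤ C' * k' := by
    calc C * k ≤ C * (C₁ * k') := mul_le_mul_of_nonneg_left hk hC0
      _ = C * C₁ * k' := by ring
      _ ≤ _ := mul_le_mul_of_nonneg_right hC k0
  have ad : C * δ ≤ C' * δ' := by
    calc C * δ ≤ C * (C₁ * δ') := mul_le_mul_of_nonneg_left hd hC0
      _ = C * C₁ * δ' := by ring
      _ ≤ _ := mul_le_mul_of_nonneg_right hC d0
  exact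
    { C0 := hC0.trans hC'
      n0 := m0
      k0 := k0
      δ0 := d0
      δ1 := d1
      s1 := fun i j => (b.s1 i j).trans hC'
      s2 := fun i j => (b.s2 i j).trans hC'
      ds1 := fun l i j => (b.ds1 l i j).trans ad
      ds2 := fun l i j => (b.ds2 l i j).trans ad
      dds1 := fun l k i j => (b.dds1 l k i j).trans ad
      dds2 := fun l k i j => (b.dds2 l k i j).trans ad
      d1 := fun i => (b.d1 i).trans am
      d2 := fun i => (b.d2 i).trans am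
      d11 := fun i j => (b.d11 i j).trans ak
      d12 := fun i j => (b.d12 i j).trans ak
      d22 := fun i j => (b.d22 i j).trans ak
      L1 := b.L1.trans ak
      L2 := b.L2.trans ak
      D11 := fun i => (b.D11 i).trans ak
      D12 := fun i => (b.D12 i).trans ak
      D21 := fun i => (b.D21 i).trans ak
      D22 := fun i => (b.D22 i).trans ak
      L11 := b.L11.trans ak
      L12 := b.L12.trans ak
      L22 := b.L22.trans ak }

end Vale.Agent.P088.R2.H644.Sy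

namespace Vale.Agent.P088.R2.H644.Pf

open Vale.Agent.P088.LR Vale.Agent.P088.HY Vale.Agent.P088.R2.H644.Sy
open Vale.Agent.P088.R2.H464.Cu Vale.Agent.P088.R2.H31.EP Vale.Agent.P088.R2.H644.Ep
open Vale.Agent.P088.R2.H657.W Vale.Agent.P088.R2.H961.GW
open Vale.Agent.P088.R2.H313.Mu (b0 b1 sw)

variable {n k : ℕ} {q q₀ : Cst} {d : Pk n} {c A : ℝ}

/-- The region `√c < r < A` below the level `l₀ + (26/10) R` (empty if `A > r₁ / e`). -/
def Ug (c A : ℝ) (q : Cst) (d : Pk n) : Set (VV n) :=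
  {z | (d.l z.1 < d.l₀ q + 26 / 10 * q.R ∧ d.l z.2 < d.l₀ q + 26 / 10 * q.R) ∧
    (c < d.r2 z ∧ d.r2 z < A ^ 2) ∧ (0 < A ∧ A ≤ q.r₁ * Real.exp (-1))}

theorem Ug_open (hg : Gc n q) (h : PkOk q d) : IsOpen (Ug c A q d) := by
  have h1 : Continuous fun z : VV n => d.l z.1 := h.lev.sm.continuous.comp continuous_fst
  have h2 : Continuous fun z : VV n => d.l z.2 := h.lev.sm.continuous.comp continuous_snd
  have h3 := (r2_sm hg h).continuous
  exact ((isOpen_lt h1 continuous_const).inter (isOpen_lt h2 continuous_const)).inter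
    (((isOpen_lt continuous_const h3).inter (isOpen_lt h3 continuous_const)).inter isOpen_const)

theorem Ug_x (hg : Gc n q) {z : VV n} (hz : z ∈ Ug c A q d) : z.1 ∈ OO q d := by
  have := hz.1.1
  have := hg.R1
  show d.l z.1 < d.l₀ q + 3 * q.R
  linarith

theorem Ug_y (hg : Gc n q) {z : VV n} (hz : z ∈ Ug c A q d) : z.2 ∈ OO q d := by
  have := hz.1.2
  have := hg.R1
  show d.l z.2 < d.l₀ q + 3 * q.R
  linarith

theorem Ug_r (hg : Gc n q) {z : VV n} (hz : z ∈ Ug c A q d) : √(d.r2 z) ≤ A * q.R := by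
  have h0 := hz.2.2.1
  have h1 : √(d.r2 z) ≤ A := by
    rw [Real.sqrt_le_left h0.le]
    exact hz.2.1.2.le
  have := hg.R1
  nlinarith

/-- **The weight where `P = id`, `Θ = 0`.** -/
theorem W_lev (hR : 0 ≤ q.R) (h : PkOk q d) {z : VV n} (h1 : d.l z.1 ≤ d.l₀ q + 26 / 10 * q.R)
    (h2 : d.l z.2 ≤ d.l₀ q + 26 / 10 * q.R) : d.W q z = WW (d.F q) d.l (gi d.s₁) z := by
  have e1 : d.P z.1 = z.1 := h.ret.id _ (by linarith)
  have e2 : d.P z.2 = z.2 := h.ret.id _ (by linarith)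
  have e3 : d.Θ (d.l z.1) = 0 := h.Θ0 _ h1
  have e4 : d.Θ (d.l z.2) = 0 := h.Θ0 _ h2
  unfold Pk.W WT
  rw [e1, e2, e3, e4]
  simp

theorem W_Ug (hg : Gc n q) (h : PkOk q d) {z : VV n} (hz : z ∈ Ug c A q d) :
    d.W q z = WW (d.F q) d.l (gi d.s₁) z :=
  W_lev (by linarith [hg.R1]) h hz.1.1.le hz.1.2.le

theorem W_Ug' (hg : Gc n q) (h : PkOk q d) {z : VV n} (hz : z ∈ Ug c A q d) :
    d.W q z = d.Φ (d.u q z) + Gn q d z := by
  rw [W_Ug hg h hz]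
  refine WW_near h.ok rfl (lt_of_lt_of_le hz.2.1.2 ?_)
  exact pow_le_pow_left₀ hz.2.2.1.le hz.2.2.2 2

/-- `Lg` on the region. -/
theorem lg_Ug (hn : 1 ≤ n) (hk : k + 1 ≤ 12) (q₀ : Cst) (c A : ℝ) :
    Lg (fun a : Fa n q₀ => OO a.q a.d) (fun a => Ug c A a.q a.d) (fun a => a.q.R)
      (fun a => a.d.l) (fun a => gi a.d.s₁) A k :=
  lgI hn hk (fun a => Ug_open a.g a.ok) (fun a z hz => Ug_x a.g hz) (fun a z hz => Ug_y a.g hz)
    fun a z hz => Ug_r a.g hz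

/-- `G` in the form of the families. -/
theorem Gu_eq (a : Fa n q₀) (z : VV n) : Gu (prS q₀.e₁) (fun a : Fa n q₀ => a.d.F a.q)
    (fun a => a.d.l) (fun a => gi a.d.s₁) a z = Gn a.q a.d z := by
  unfold Gn
  rw [a.e₁]
  rfl

/-- **All slot quantities, with the correction.** -/
theorem gen_far (hn : 1 ≤ n) (hc : 0 < c) (q₀ : Cst) (he : 0 < q₀.e₁) (A : ℝ) :
    ∀ᶠ C : ℝ in atTop, ∀ a : Fa n q₀, ∀ z ∈ Ug c A a.q a.d,
      B0 a.d.sx a.d.sy (a.d.W a.q) z C (a.d.N a.q z + Gn a.q a.d z)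
        (a.d.Kf a.q z + a.d.N a.q z * ((a.q.R)⁻¹ + tA a z) + Gn a.q a.d z) (a.q.R)⁻¹ := by
  have key := b0_far (δ := fun a : Fa n q₀ => (a.q.R)⁻¹) (lsI he hc) (pcI n q₀) (mcI n q₀)
    (lg_Ug hn (k := 3) (by norm_num) q₀ c A)
    (fun a z hz => hz.2.1.1) (fun a => inv_nonneg.2 (by linarith [a.g.R1])) (fun a => δR1 a.g)
    ⟨1, zero_le_one, fun a => by rw [one_mul]⟩ (tn1 (n := n) (k := 2) q₀ (by norm_num))
    (tn2 (n := n) (k := 2) q₀ (by norm_num)) (fun a z hz => by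
      rw [Gu_eq, ← W_Ug a.g a.ok hz]
      exact W_Ug' a.g a.ok hz)
  filter_upwards [key] with C hC a z hz
  have h1 := hC a z hz
  rw [kp, Gu_eq] at h1
  exact h1.congr (Ug_open a.g a.ok) (fun z hz => W_Ug a.g a.ok hz) hz

/-- `K ≤ C N` everywhere. -/
theorem K_N (hg : Gc n q) (h : PkOk q d) (z : VV n) :
    d.Kf q z ≤ (|q.L| + 1 / 20) * d.N q z := by
  refine (h.top.k2 _).trans (mul_le_mul_of_nonneg_right ?_ (N_nn hg h z))
  linarith [le_abs_self q.L]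

theorem K_nn (h : PkOk q d) (z : VV n) : 0 ≤ d.Kf q z := (h.top.k0 _).le

theorem gen_fam (hn : 1 ≤ n) {cf Af : Cst → ℝ} (hcf : NB_M₀ cf) (hAf : NB_M₀ Af) (q₀ : Cst)
    (he : 0 < q₀.e₁) (hc : 0 < cf q₀) : ∃ C : ℝ, 1 ≤ C ∧ ∀ a : Fa n q₀,
      ∀ z ∈ Ug (cf a.q) (Af a.q) a.q a.d, B0 a.d.sx a.d.sy (a.d.W a.q) z C
        (a.d.N a.q z + Gn a.q a.d z) (a.d.N a.q z + Gn a.q a.d z) (a.q.R)⁻¹ := by
  obtain ⟨C, h1, h2⟩ := ((gen_far hn hc q₀ he (Af q₀)).and (eventually_ge_atTop 1)).exists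
  have hL0 := abs_nonneg q₀.L
  refine ⟨C * (|q₀.L| + 4), by nlinarith, fun a z hz => ?_⟩
  rw [a.nb hcf, a.nb hAf] at hz
  have hG := Gn_nn a.g a.ok z
  have hN := N_nn a.g a.ok z
  have hR : 0 < a.q.R := by linarith [a.g.R1]
  have hRi := δR1 a.g
  have hK : a.d.Kf a.q z ≤ (|q₀.L| + 1 / 20) * a.d.N a.q z := by
    have := K_N a.g a.ok z
    rwa [a.L] at this
  have ht : a.d.N a.q z * ((a.q.R)⁻¹ + tA a z) ≤ a.d.N a.q z * 3 :=
    mul_le_mul_of_nonneg_left (by linarith [tA_2 a z]) hN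
  have p1 := mul_nonneg hL0 hG
  have p2 := mul_nonneg hL0 hN
  refine (h1 a z hz).le (C₁ := |q₀.L| + 4) (by linarith) ?_ ?_ ?_ (add_nonneg hN hG)
    (add_nonneg hN hG) (inv_nonneg.2 hR.le) hRi le_rfl
  · nlinarith
  · nlinarith
  · nlinarith [inv_nonneg.2 hR.le]

/-- **Crude bounds of all slot quantities of the weight of the package.** -/
theorem b0_gen (hn : 1 ≤ n) (cf Af : Cst → ℝ) (hcf : NB_M₀ cf) (hAf : NB_M₀ Af) :
    ∃ C : Cst → ℝ, NB_M₀ C ∧ (∀ q, 1 ≤ C q) ∧ ∀ q, Gc n q → 0 < cf q → 0 < Af q →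
      Af q ≤ q.r₁ * Real.exp (-1) → ∀ d : Pk n, PkOk q d → ∀ z : VV n,
      d.l z.1 < d.l₀ q + 26 / 10 * q.R → d.l z.2 < d.l₀ q + 26 / 10 * q.R →
      cf q < d.r2 z → d.r2 z < Af q ^ 2 →
        B0 d.sx d.sy (d.W q) z (C q) (d.N q z + Gn q d z) (d.N q z + Gn q d z) (q.R)⁻¹ := by
  have key : ∀ q₀ : Cst, ∃ C : ℝ, 1 ≤ C ∧ ∀ a : Fa n q₀, 0 < cf a.q →
      ∀ z ∈ Ug (cf a.q) (Af a.q) a.q a.d, B0 a.d.sx a.d.sy (a.d.W a.q) z C
        (a.d.N a.q z + Gn a.q a.d z) (a.d.N a.q z + Gn a.q a.d z) (a.q.R)⁻¹ := by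
    intro q₀
    by_cases hq : 0 < q₀.e₁ ∧ 0 < cf q₀
    · obtain ⟨C, h1, h2⟩ := gen_fam hn hcf hAf q₀ hq.1 hq.2
      exact ⟨C, h1, fun a _ => h2 a⟩
    · refine ⟨1, le_rfl, fun a h1 => absurd ⟨?_, ?_⟩ hq⟩
      · rw [← a.e₁]; exact a.g.e0
      · rwa [← a.nb hcf]
  choose C hC0 hC using key
  refine ⟨fun q => C q.b_M₀, fun q => rfl, fun q => hC0 _,
    fun q hg hc hA hAr d hd z h1 h2 h3 h4 => ?_⟩
  exact hC q.b_M₀ ⟨q, d, rfl, hg, hd⟩ hc z ⟨⟨h1, h2⟩, ⟨h3, h4⟩, hA, hAr⟩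

/-- Every function of the constants before `M₀` is at most `r₁ / e`. -/
theorem ev_r1 {Af : Cst → ℝ} (hAf : NB_M₀ Af) : EvC fun q => Af q ≤ q.r₁ * Real.exp (-1) := by
  have h := EvC.at_M₀ (fun q t => 0 < q.c' → Af q ≤ q.c' * t / 2 * Real.exp (-1)) fun q => by
    by_cases h : 0 < q.c'
    · refine ev_top (2 * Real.exp 1 * Af q / q.c') fun t ht _ => ?_
      rw [div_le_iff₀ h] at ht
      rw [Real.exp_neg, ← div_eq_mul_inv, le_div_iff₀ (Real.exp_pos 1)]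
      linarith
    · exact Eventually.of_forall fun _ h' => absurd h' h
  refine (EvC.pos.and h).mono fun q hq => ?_
  have h1 := hq.2 hq.1.2.1.2.2.1
  rw [hAf] at h1
  exact h1

end Vale.Agent.P088.R2.H644.Pf
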