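import Vale.Agent.P088.R2.H644.N.PkG

/-!
# P088, stage 3: all derivatives of `u`, `r`, `N`, `K`, `G`, `W` on the package

`dr_gen`: the bounds of the iterated derivatives up to order seven on `√c < r < A`, with constants
depending on the constants before `M₀`.
-/

open Set Filter
open scoped ContDiff Topology Matrix

noncomputable section

namespace Vale.Agent.P088.R2.H644.Sy

variable {α E F : Type*} [NormedAddCommGroup E] [NormedSpace ℝ E] [NormedAddCommGroup F]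
  [NormedSpace ℝ F] {U : α → Set E} {ρ g : α → E → ℝ} {k : ℕ} {f : α → E → F}

/-- One constant for all orders. -/
theorem Sf.all (h : Sf U ρ g k f) (hg : ∀ a, ∀ z ∈ U a, 0 ≤ g a z)
    (hρ : ∀ a, ∀ z ∈ U a, 0 ≤ ρ a z) : ∀ᶠ C : ℝ in atTop, ∀ j ≤ k, ∀ a, ∀ z ∈ U a,
      ‖iteratedFDeriv ℝ j (f a) z‖ ≤ C * (g a z * (ρ a z)⁻¹ ^ j) := by
  have h1 : ∀ j, ∃ C, j ≤ k → ∀ a, ∀ z ∈ U a,
      ‖iteratedFDeriv ℝ j (f a) z‖ ≤ C * (g a z * (ρ a z)⁻¹ ^ j) := fun j => by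
    by_cases hj : j ≤ k
    · obtain ⟨C, hC⟩ := h.bd j hj
      exact ⟨C, fun _ => hC⟩
    · exact ⟨0, fun h => absurd h hj⟩
  choose C hC using h1
  have h2 : ∀ᶠ D : ℝ in atTop, ∀ j ∈ Finset.range (k + 1), C j ≤ D :=
    (Filter.eventually_all_finset _).2 fun j _ => eventually_ge_atTop _
  filter_upwards [h2] with D hD j hj a z hz
  refine (hC j hj a z hz).trans (mul_le_mul_of_nonneg_right
    (hD j (Finset.mem_range.2 (Nat.lt_succ_of_le hj))) ?_)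
  exact mul_nonneg (hg a z hz) (pow_nonneg (inv_nonneg.2 (hρ a z hz)) j)

end Vale.Agent.P088.R2.H644.Sy

namespace Vale.Agent.P088.R2.H644.Pf

open Vale.Agent.P088.LR Vale.Agent.P088.HY Vale.Agent.P088.R2.H644.Sy
open Vale.Agent.P088.R2.H464.Cu Vale.Agent.P088.R2.H31.EP Vale.Agent.P088.R2.H644.Ep
open Vale.Agent.P088.R2.H657.W Vale.Agent.P088.R2.H961.GW Vale.Agent.P088.R2.H644.Ch
open Vale.Agent.P088.R2.H313.Mu (b0 b1 sw)

variable {n k : ℕ} {q q₀ : Cst} {d : Pk n} {c A : ℝ}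

/-- The size of `D² u`: `1 / R` plus the correction. -/
def wu (q : Cst) (d : Pk n) (z : VV n) : ℝ := (q.R)⁻¹ + ((if d.r2 z ≤ 4 then b0 1 q.M₀ else 0) +
  (if 1 ≤ d.r2 z ∧ d.r2 z ≤ 4 then b1 1 q.M₀ else 0))

theorem wu_far {z : VV n} (h : 4 < d.r2 z) : wu q d z = (q.R)⁻¹ := by
  unfold wu
  rw [if_neg (not_le.2 h), if_neg fun h1 => absurd h1.2 (not_le.2 h), add_zero, add_zero]

/-- The bounds of the derivatives of `u`, `r`, `N`, `K`, `G`, `W`. -/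
structure Dr (C : ℝ) (q : Cst) (d : Pk n) (z : VV n) : Prop where
  u1 : ∀ j ≤ 6, ‖iteratedFDeriv ℝ (j + 1) (d.u q) z‖ ≤ C
  u2 : ∀ j ≤ 6, ‖iteratedFDeriv ℝ (j + 2) (d.u q) z‖ ≤ C * wu q d z
  r : ∀ j ≤ 6, ‖iteratedFDeriv ℝ j (fun z => √(d.r2 z)) z‖ ≤
    C * (√(d.r2 z) * (√(d.r2 z))⁻¹ ^ j)
  N : ∀ j ≤ 6, ‖iteratedFDeriv ℝ j (d.N q) z‖ ≤ C * d.N q z
  K : ∀ j ≤ 6, ‖iteratedFDeriv ℝ j (d.Kf q) z‖ ≤ C * d.Kf q z
  G : ∀ j ≤ 6, ‖iteratedFDeriv ℝ j (Gn q d) z‖ ≤ C * Gn q d z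
  W : ∀ j ≤ 6, ‖iteratedFDeriv ℝ (j + 1) (d.W q) z‖ ≤ C * (d.N q z + Gn q d z)

theorem dr_fam (hn : 1 ≤ n) {cf Af : Cst → ℝ} (hcf : NB_M₀ cf) (hAf : NB_M₀ Af) (q₀ : Cst)
    (he : 0 < q₀.e₁) (hc : 0 < cf q₀) : ∃ C : ℝ, 1 ≤ C ∧ ∀ a : Fa n q₀,
      ∀ z ∈ Ug (cf a.q) (Af a.q) a.q a.d, Dr C a.q a.d z := by
  have lg := lg_Ug hn (k := 9) (by norm_num) q₀ (cf q₀) (Af q₀)
  have m := mcI n q₀
  have hU : ∀ a : Fa n q₀, IsOpen (Ug (cf q₀) (Af q₀) a.q a.d) := fun a => Ug_open a.g a.ok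
  have h0 : ∀ a : Fa n q₀, ∀ z ∈ Ug (cf q₀) (Af q₀) a.q a.d, cf q₀ < a.d.r2 z :=
    fun a z hz => hz.2.1.1
  have w := wf_uu m lg hc.le h0
  have wg := wg_far (k := 8) (δ := fun a : Fa n q₀ => (a.q.R)⁻¹) (lsI he hc) (pcI n q₀) m lg h0
    (fun a => inv_nonneg.2 (by linarith [a.g.R1])) (fun a => δR1 a.g)
    ⟨1, zero_le_one, fun a => by rw [one_mul]⟩
  -- the symbols
  have s1 : Sf (fun a : Fa n q₀ => Ug (cf q₀) (Af q₀) a.q a.d) (fun _ _ => 1) (fun _ _ => 1) 6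
      (fun a => fderiv ℝ (a.d.u a.q)) := (s_du m lg).mono_k (by norm_num)
  have s2 : Sf (fun a : Fa n q₀ => Ug (cf q₀) (Af q₀) a.q a.d) (fun _ _ => 1)
      (fun a z => wu a.q a.d z) 6 (fun a => fderiv ℝ (fderiv ℝ (a.d.u a.q))) :=
    (s_ddu m lg).mono_k (by norm_num)
  have s3 : Sf (fun a : Fa n q₀ => Ug (cf q₀) (Af q₀) a.q a.d) (fun a z => √(a.d.r2 z))
      (fun a z => √(a.d.r2 z)) 6 (fun a z => √(a.d.r2 z)) := (w.sqrt hc).mono_k (by norm_num)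
  have s4 : Sf (fun a : Fa n q₀ => Ug (cf q₀) (Af q₀) a.q a.d) (fun _ _ => 1)
      (fun a z => a.d.N a.q z) 6 (fun a z => a.d.N a.q z) := wg.sp.p1.mono_k (by norm_num)
  have s5 : Sf (fun a : Fa n q₀ => Ug (cf q₀) (Af q₀) a.q a.d) (fun _ _ => 1)
      (fun a z => a.d.Kf a.q z) 6 (fun a z => a.d.Kf a.q z) := wg.sp.p2.mono_k (by norm_num)
  have s6 : Sf (fun a : Fa n q₀ => Ug (cf q₀) (Af q₀) a.q a.d) (fun _ _ => 1)
      (fun a z => Gn a.q a.d z) 7 (fun a => Gn a.q a.d) :=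
    ((((lsI he hc).F w).mono_k (by norm_num)).congr hU fun a z _ => (Gu_eq a z).symm).wcongr
      fun a z _ => (Gu_eq a z).symm
  have s7 : Sf (fun a : Fa n q₀ => Ug (cf q₀) (Af q₀) a.q a.d) (fun _ _ => 1)
      (fun a z => a.d.N a.q z + Gn a.q a.d z) 6 (fun a => fderiv ℝ (a.d.W a.q)) := by
    have t1 : Sf (fun a : Fa n q₀ => Ug (cf q₀) (Af q₀) a.q a.d) (fun _ _ => 1)
        (fun a z => a.d.N a.q z) 6 (fun a z => a.d.N a.q z • fderiv ℝ (a.d.u a.q) z) :=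
      (s4.smul hU s1).wcongr fun a z _ => by simp
    have t2 : Sf (fun a : Fa n q₀ => Ug (cf q₀) (Af q₀) a.q a.d) (fun _ _ => 1)
        (fun a z => Gn a.q a.d z) 6 (fun a => fderiv ℝ (Gn a.q a.d)) :=
      (s6.fd hU).wcongr fun a z _ => by simp
    refine (Sf.add' hU (fun _ _ _ => one_pos) (fun a z _ => N_nn a.g a.ok z)
      (fun a z _ => Gn_nn a.g a.ok z) t1 t2).congr hU fun a z hz => ?_
    have e1 : a.d.W a.q =ᶠ[𝓝 z] fun z => a.d.Φ (a.d.u a.q z) + Gn a.q a.d z := by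
      filter_upwards [(hU a).mem_nhds hz] with y hy using W_Ug' a.g a.ok hy
    rw [e1.fderiv_eq]
    have d1 : HasDerivAt a.d.Φ (a.d.N a.q z) (a.d.u a.q z) :=
      (a.ok.top.sm.differentiable (by simp) _).hasDerivAt
    have d2 : HasFDerivAt (a.d.u a.q) (fderiv ℝ (a.d.u a.q) z) z :=
      ((((sm_uu m lg a) z hz).contDiffAt ((hU a).mem_nhds hz)).differentiableAt
        (by simp)).hasFDerivAt
    have d3 : HasFDerivAt (Gn a.q a.d) (fderiv ℝ (Gn a.q a.d) z) z :=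
      ((((s6.sm a) z hz).contDiffAt ((hU a).mem_nhds hz)).differentiableAt
        (by simp)).hasFDerivAt
    exact ((d1.comp_hasFDerivAt z d2).add d3).fderiv
  -- the constants
  have wu0 : ∀ (a : Fa n q₀) z, 0 ≤ wu a.q a.d z := fun a z => ww_0 m lg a z
  obtain ⟨C, c1, c2, c3, c4, c5, c6, c7, c8⟩ :=
    ((s1.all (fun _ _ _ => zero_le_one) (fun _ _ _ => zero_le_one)).and
    ((s2.all (fun a z _ => wu0 a z) (fun _ _ _ => zero_le_one)).and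
    ((s3.all (fun a z _ => Real.sqrt_nonneg _) (fun a z _ => Real.sqrt_nonneg _)).and
    ((s4.all (fun a z _ => N_nn a.g a.ok z) (fun _ _ _ => zero_le_one)).and
    ((s5.all (fun a z _ => K_nn a.ok z) (fun _ _ _ => zero_le_one)).and
    ((s6.all (fun a z _ => Gn_nn a.g a.ok z) (fun _ _ _ => zero_le_one)).and
    ((s7.all (fun a z _ => add_nonneg (N_nn a.g a.ok z) (Gn_nn a.g a.ok z))
      (fun _ _ _ => zero_le_one)).and (eventually_ge_atTop 1)))))))).exists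
  refine ⟨C, c8, fun a z hz => ?_⟩
  rw [a.nb hcf, a.nb hAf] at hz
  refine ⟨fun j hj => ?_, fun j hj => ?_, fun j hj => ?_, fun j hj => ?_, fun j hj => ?_,
    fun j hj => ?_, fun j hj => ?_⟩
  · have := c1 j hj a z hz
    rwa [norm_iteratedFDeriv_fderiv, inv_one, one_pow, mul_one, mul_one] at this
  · have := c2 j hj a z hz
    rwa [norm_iteratedFDeriv_fderiv, norm_iteratedFDeriv_fderiv, inv_one, one_pow,
      mul_one] at this
  · exact c3 j hj a z hz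
  · have := c4 j hj a z hz
    rwa [inv_one, one_pow, mul_one] at this
  · have := c5 j hj a z hz
    rwa [inv_one, one_pow, mul_one] at this
  · have := c6 j (by omega) a z hz
    rwa [inv_one, one_pow, mul_one] at this
  · have := c7 j hj a z hz
    rwa [norm_iteratedFDeriv_fderiv, inv_one, one_pow, mul_one] at this

/-- **All derivatives of `u`, `r`, `N`, `K`, `G`, `W` on the package.** -/
theorem dr_gen (hn : 1 ≤ n) (cf Af : Cst → ℝ) (hcf : NB_M₀ cf) (hAf : NB_M₀ Af) :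
    ∃ C : Cst → ℝ, NB_M₀ C ∧ (∀ q, 1 ≤ C q) ∧ ∀ q, Gc n q → 0 < cf q → 0 < Af q →
      Af q ≤ q.r₁ * Real.exp (-1) → ∀ d : Pk n, PkOk q d → ∀ z : VV n,
      d.l z.1 < d.l₀ q + 26 / 10 * q.R → d.l z.2 < d.l₀ q + 26 / 10 * q.R →
      cf q < d.r2 z → d.r2 z < Af q ^ 2 → Dr (C q) q d z := by
  have key : ∀ q₀ : Cst, ∃ C : ℝ, 1 ≤ C ∧ ∀ a : Fa n q₀, 0 < cf a.q →
      ∀ z ∈ Ug (cf a.q) (Af a.q) a.q a.d, Dr C a.q a.d z := by
    intro q₀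
    by_cases hq : 0 < q₀.e₁ ∧ 0 < cf q₀
    · obtain ⟨C, h1, h2⟩ := dr_fam hn hcf hAf q₀ hq.1 hq.2
      exact ⟨C, h1, fun a _ => h2 a⟩
    · refine ⟨1, le_rfl, fun a h1 => absurd ⟨?_, ?_⟩ hq⟩
      · rw [← a.e₁]; exact a.g.e0
      · rwa [← a.nb hcf]
  choose C hC0 hC using key
  refine ⟨fun q => C q.b_M₀, fun q => rfl, fun q => hC0 _,
    fun q hg hc hA hAr d hd z h1 h2 h3 h4 => ?_⟩
  exact hC q.b_M₀ ⟨q, d, rfl, hg, hd⟩ hc z ⟨⟨h1, h2⟩, ⟨h3, h4⟩, hA, hAr⟩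

/-- The slot derivatives of the first order. -/
theorem Dx_le (d : Pk n) {f : VV n → ℝ} (i : Fin n) (z : VV n) :
    |d.sx.D i f z| ≤ ‖iteratedFDeriv ℝ 1 f z‖ := by
  have e : d.sx.D i f z = fderiv ℝ f z (Pi.single i 1, 0) := by
    simp [Sl.D, Pk.sx, slx]
  rw [e, norm_iteratedFDeriv_one]
  refine ((fderiv ℝ f z).le_opNorm _).trans (mul_le_of_le_one_right (norm_nonneg _) ?_)
  rw [Prod.norm_mk, norm_zero, Pi.norm_single, norm_one]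
  norm_num

theorem Dy_le (d : Pk n) {f : VV n → ℝ} (i : Fin n) (z : VV n) :
    |d.sy.D i f z| ≤ ‖iteratedFDeriv ℝ 1 f z‖ := by
  have e : d.sy.D i f z = fderiv ℝ f z (0, Pi.single i 1) := by
    simp [Sl.D, Pk.sy, sly]
  rw [e, norm_iteratedFDeriv_one]
  refine ((fderiv ℝ f z).le_opNorm _).trans (mul_le_of_le_one_right (norm_nonneg _) ?_)
  rw [Prod.norm_mk, norm_zero, Pi.norm_single, norm_one]
  norm_num

end Vale.Agent.P088.R2.H644.Pf
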