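import Vale.Agent.P088.R2.H644.W.SymW
import Vale.Agent.P088.R2.H747.A.Row

/-!
# P088, zone A near the diagonal: the terms of order three and four from the bounds `B0`

`κ ≤ C₁ (G + N / R)`, `δ ≤ C₁ / R`, `F, F' ≥ c (N + G)²`, `m ≥ m₀ (G + N / R)`, `N` large:
all smallness conditions of `H747.SW.Cert` (no potentials).
-/

open Set Filter
open scoped ContDiff Topology

noncomputable section

namespace Vale.Agent.P088.R2.H644.Nr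

open Vale.Agent.P088.R2.H961.GW Vale.Agent.P088.R2.H644 Vale.Agent.P088.R2.H644.Sy
  Vale.Agent.P088.R2.H960.W Vale.Agent.P088.R2.H747.SW

variable {E ι κ : Type*} [NormedAddCommGroup E] [NormedSpace ℝ E] [Fintype ι] [Fintype κ]

/-- The constant of the arithmetic. -/
def Kn (a C C₁ : ℝ) : ℝ := (4 * a ^ 4 + a ^ 2 + 1) * (1 + C) ^ 4 * (1 + C₁) ^ 2

theorem Kn_ge {a C C₁ : ℝ} (hC : 0 ≤ C) (h1 : 0 ≤ C₁) :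
    4 * a ^ 4 * C ^ 4 * (C₁ ^ 2 + C₁) ≤ Kn a C C₁ ∧ a ^ 4 * C ^ 4 * C₁ ^ 2 ≤ Kn a C C₁ ∧
      a ^ 2 * C ^ 3 * C₁ ^ 2 ≤ Kn a C C₁ ∧ C * C₁ ≤ Kn a C C₁ ∧ 0 ≤ Kn a C C₁ := by
  have c1 : 1 ≤ 1 + C := by linarith
  have e4 : C ^ 4 ≤ (1 + C) ^ 4 := pow_le_pow_left₀ hC (by linarith) 4
  have e3 : C ^ 3 ≤ (1 + C) ^ 4 :=
    (pow_le_pow_left₀ hC (by linarith) 3).trans (pow_le_pow_right₀ c1 (by norm_num))
  have e1 : C ≤ (1 + C) ^ 4 := by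
    have := pow_le_pow_right₀ c1 (by norm_num : 1 ≤ 4)
    rw [pow_one] at this
    linarith
  have d1 : C₁ ^ 2 + C₁ ≤ (1 + C₁) ^ 2 := by nlinarith
  have d2 : C₁ ^ 2 ≤ (1 + C₁) ^ 2 := by nlinarith
  have d3 : C₁ ≤ (1 + C₁) ^ 2 := by nlinarith
  have a4 : 0 ≤ a ^ 4 := by positivity
  have a2 : 0 ≤ a ^ 2 := by positivity
  have f1 : 4 * a ^ 4 ≤ 4 * a ^ 4 + a ^ 2 + 1 := by linarith
  have f2 : a ^ 4 ≤ 4 * a ^ 4 + a ^ 2 + 1 := by linarith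
  have f3 : a ^ 2 ≤ 4 * a ^ 4 + a ^ 2 + 1 := by linarith
  have f4 : 1 ≤ 4 * a ^ 4 + a ^ 2 + 1 := by linarith
  unfold Kn
  refine ⟨?_, ?_, ?_, ?_, by positivity⟩
  · gcongr
  · gcongr
  · gcongr
  · calc C * C₁ = 1 * C * C₁ := by ring
      _ ≤ _ := by gcongr

section arith

variable {a C C₁ K δ N G R c m₀ m F F' ε : ℝ}

/-- `K² + δ n² ≤ (C₁² + C₁) X n² / N` with `X = G + N/R`, `n = N + G`. -/
theorem ar1 (h1 : 0 ≤ C₁) (hN : 0 < N) (hG : 0 ≤ G) (hR : 1 ≤ R) (hK0 : 0 ≤ K)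
    (hK : K ≤ C₁ * (G + N / R)) (hδ : δ ≤ C₁ / R) :
    K ^ 2 ≤ C₁ ^ 2 * ((G + N / R) * (N + G) ^ 2 / N) ∧
      δ * (N + G) ^ 2 ≤ C₁ * ((G + N / R) * (N + G) ^ 2 / N) := by
  have hR0 : 0 < R := by linarith
  have x0 : 0 ≤ N / R := by positivity
  have x1 : N / R ≤ N := div_le_self hN.le hR
  have hn : 0 < N + G := by linarith
  have e1 : (N + G) ≤ (N + G) ^ 2 / N := by
    rw [le_div_iff₀ hN]
    nlinarith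
  constructor
  · calc K ^ 2 ≤ (C₁ * (G + N / R)) ^ 2 := pow_le_pow_left₀ hK0 hK 2
      _ = C₁ ^ 2 * ((G + N / R) * (G + N / R)) := by ring
      _ ≤ C₁ ^ 2 * ((G + N / R) * ((N + G) ^ 2 / N)) := by
          have : G + N / R ≤ (N + G) ^ 2 / N := by linarith
          gcongr
      _ = _ := by ring
  · calc δ * (N + G) ^ 2 ≤ C₁ / R * (N + G) ^ 2 :=
          mul_le_mul_of_nonneg_right hδ (sq_nonneg _)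
      _ = C₁ * ((N / R) * (N + G) ^ 2 / N) := by field_simp
      _ ≤ _ := by
          have : N / R ≤ G + N / R := by linarith
          gcongr

/-- `X n² / N ≤ (1 / (m₀ c N)) m F`. -/
theorem ar2 (hN : 0 < N) (hG : 0 ≤ G) (hR : 1 ≤ R) (hc : 0 < c) (hm0 : 0 < m₀)
    (hm : m₀ * (G + N / R) ≤ m) (hF : c * (N + G) ^ 2 ≤ F) :
    (G + N / R) * (N + G) ^ 2 / N ≤ (m₀ * c * N)⁻¹ * (m * F) := by
  have hR0 : 0 < R := by linarith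
  have x0 : 0 ≤ N / R := by positivity
  have h1 : m₀ * (G + N / R) * (c * (N + G) ^ 2) ≤ m * F :=
    mul_le_mul hm hF (by positivity) ((by positivity : 0 ≤ m₀ * (G + N / R)).trans hm)
  calc (G + N / R) * (N + G) ^ 2 / N =
      (m₀ * c * N)⁻¹ * (m₀ * (G + N / R) * (c * (N + G) ^ 2)) := by field_simp
    _ ≤ _ := mul_le_mul_of_nonneg_left h1 (by positivity)

theorem sq_ge (hN : 1 ≤ N) (hG : 0 ≤ G) : N ≤ (N + G) ^ 2 := by nlinarith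

/-- `Y = X n² / N ≥ X`. -/
theorem ar3 (hN : 1 ≤ N) (hG : 0 ≤ G) (hR : 1 ≤ R) :
    G + N / R ≤ (G + N / R) * (N + G) ^ 2 / N := by
  have hN0 : 0 < N := by linarith
  have hR0 : 0 < R := by linarith
  have x0 : 0 ≤ G + N / R := by positivity
  rw [le_div_iff₀ hN0]
  exact mul_le_mul_of_nonneg_left (sq_ge hN hG) x0

/-- `D Y ≤ ε m F`. -/
theorem gen {D Kc Y X : ℝ} (hY : 0 ≤ Y) (hD : D ≤ Kc) (hK : 0 ≤ Kc) (hF : 0 ≤ m * F)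
    (hq : Y ≤ X⁻¹ * (m * F)) (hs : Kc * X⁻¹ ≤ ε) : D * Y ≤ ε * (m * F) :=
  calc D * Y ≤ Kc * Y := mul_le_mul_of_nonneg_right hD hY
    _ ≤ Kc * (X⁻¹ * (m * F)) := mul_le_mul_of_nonneg_left hq hK
    _ = Kc * X⁻¹ * (m * F) := by ring
    _ ≤ _ := mul_le_mul_of_nonneg_right hs hF

/-- Products. -/
theorem prod2 {x F' : ℝ} (hε : 0 ≤ ε) (hF : 0 ≤ m * F) (h : |x| ≤ ε * (m * F))
    (h' : |x| ≤ ε * (m * F')) : x ^ 2 ≤ ε ^ 2 * (m ^ 2 * (F * F')) :=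
  calc x ^ 2 = |x| * |x| := by rw [← sq_abs, sq]
    _ ≤ (ε * (m * F)) * (ε * (m * F')) := mul_le_mul h h' (abs_nonneg _) (mul_nonneg hε hF)
    _ = _ := by ring

/-- The bound of `Γ(ΛW, ΛW)`. -/
theorem tt {x X D : ℝ} (hN : 1 ≤ N) (hG : 0 ≤ G) (hc : 0 ≤ c) (hε : 0 ≤ ε) (hK0 : 0 ≤ K)
    (hm0 : 0 ≤ m₀) (hX : 0 ≤ X) (hD : 0 ≤ D) (hK : K ≤ C₁ * X) (hm : m₀ * X ≤ m)
    (hF : c * (N + G) ^ 2 ≤ F) (hN' : D * C₁ ^ 2 ≤ ε * (m₀ ^ 2 * c) * N)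
    (hx : x ≤ D * K ^ 2) : x ≤ ε * (m ^ 2 * F) := by
  have e1 : K ^ 2 ≤ C₁ ^ 2 * X ^ 2 := by
    rw [← mul_pow]
    exact pow_le_pow_left₀ hK0 hK 2
  have e2 : m₀ ^ 2 * X ^ 2 ≤ m ^ 2 := by
    rw [← mul_pow]
    exact pow_le_pow_left₀ (mul_nonneg hm0 hX) hm 2
  have e3 : c * N ≤ F := (mul_le_mul_of_nonneg_left (sq_ge hN hG) hc).trans hF
  have e4 : 0 ≤ c * N := by positivity
  calc x ≤ D * K ^ 2 := hx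
    _ ≤ D * (C₁ ^ 2 * X ^ 2) := mul_le_mul_of_nonneg_left e1 hD
    _ = D * C₁ ^ 2 * X ^ 2 := by ring
    _ ≤ ε * (m₀ ^ 2 * c) * N * X ^ 2 := mul_le_mul_of_nonneg_right hN' (sq_nonneg _)
    _ = ε * (m₀ ^ 2 * X ^ 2 * (c * N)) := by ring
    _ ≤ ε * (m ^ 2 * F) := by gcongr

/-- The small number. -/
theorem sml_n {Kc : ℝ} (hm0 : 0 < m₀) (hm1 : m₀ ≤ 1) (hc : 0 < c) (hN0 : 0 < N) (hε : 0 < ε)
    (hN : Kc ≤ ε * (m₀ ^ 2 * c) * N) : Kc * (m₀ * c * N)⁻¹ ≤ ε := by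
  rw [← div_eq_mul_inv, div_le_iff₀ (by positivity)]
  refine hN.trans ?_
  have : ε * (m₀ ^ 2 * c) * N = ε * (m₀ * c * N) * m₀ := by ring
  rw [this]
  exact mul_le_of_le_one_right (by positivity) hm1

end arith

variable {σ : Sl E ι} {τ : Sl E κ} {W m : E → ℝ} {c : ι → E → ℝ} {c' : κ → E → ℝ} {z : E}
  {C N G K δ R C₁ c₁ m₀ ε a : ℝ} {U : Set E} {θ θ' : E → ℝ}

theorem g2_ar {x n₀ Y : ℝ} (n0 : 0 ≤ n₀) (hn : n₀ ≤ a)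
    (hk : K ^ 2 + δ * (N + G) ^ 2 ≤ (C₁ ^ 2 + C₁) * Y) (hd : 0 ≤ K ^ 2 + δ * (N + G) ^ 2)
    (hx : x ≤ 4 * n₀ ^ 4 * C ^ 4 * (K ^ 2 + δ * (N + G) ^ 2)) :
    x ≤ 4 * a ^ 4 * C ^ 4 * (C₁ ^ 2 + C₁) * Y := by
  have a4 : n₀ ^ 4 ≤ a ^ 4 := pow_le_pow_left₀ n0 hn 4
  have C4 : 0 ≤ C ^ 4 := by positivity
  calc x ≤ 4 * n₀ ^ 4 * C ^ 4 * (K ^ 2 + δ * (N + G) ^ 2) := hx
    _ ≤ 4 * a ^ 4 * C ^ 4 * ((C₁ ^ 2 + C₁) * Y) := by gcongr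
    _ = _ := by ring

theorem m2_ar {x n₀ n₁ Y : ℝ} (n0 : 0 ≤ n₀) (hn : n₀ ≤ a) (n1 : 0 ≤ n₁) (hn1 : n₁ ≤ a)
    (hC : 0 ≤ C) (hk : K ^ 2 ≤ C₁ ^ 2 * Y)
    (hx : x ≤ n₁ ^ 2 * (n₀ ^ 2 * (C * C * (C * K) ^ 2))) :
    x ≤ a ^ 4 * C ^ 4 * C₁ ^ 2 * Y := by
  have a2 : n₀ ^ 2 ≤ a ^ 2 := pow_le_pow_left₀ n0 hn 2
  have a2' : n₁ ^ 2 ≤ a ^ 2 := pow_le_pow_left₀ n1 hn1 2
  calc x ≤ n₁ ^ 2 * (n₀ ^ 2 * (C * C * (C * K) ^ 2)) := hx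
    _ ≤ a ^ 2 * (a ^ 2 * (C * C * (C * K) ^ 2)) := by gcongr
    _ = a ^ 4 * C ^ 4 * K ^ 2 := by ring
    _ ≤ a ^ 4 * C ^ 4 * (C₁ ^ 2 * Y) := by gcongr
    _ = _ := by ring

theorem t_ar {x n₀ : ℝ} (n0 : 0 ≤ n₀) (hn : n₀ ≤ a) (hC : 0 ≤ C)
    (hx : |x| ≤ n₀ ^ 2 * (C * (C * K) * (C * K))) : x ≤ a ^ 2 * C ^ 3 * K ^ 2 := by
  have a2 : n₀ ^ 2 ≤ a ^ 2 := pow_le_pow_left₀ n0 hn 2
  calc x ≤ |x| := le_abs_self x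
    _ ≤ n₀ ^ 2 * (C ^ 3 * K ^ 2) := hx.trans (le_of_eq (by ring))
    _ ≤ a ^ 2 * (C ^ 3 * K ^ 2) := by gcongr
    _ = _ := by ring

/-- **The certificate from `B0`.** -/
theorem cert_of_B0 (b : B0 σ τ W z C (N + G) K δ) (ok : σ.Ok U θ) (ot : τ.Ok U θ')
    (u1 : ∀ z, σ.ρ z = 1) (u1' : ∀ z, τ.ρ z = 1) (hL : Ch.Lx σ U) (hL' : Ch.Lx τ U)
    (hW : Sm U W) (hz : z ∈ U) (ha : (Fintype.card ι : ℝ) ≤ a) (ha' : (Fintype.card κ : ℝ) ≤ a)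
    (hN1 : 1 ≤ N) (hG : 0 ≤ G) (hR : 1 ≤ R) (h1 : 0 ≤ C₁)
    (hK : K ≤ C₁ * (G + N / R)) (hδ : δ ≤ C₁ / R) (hc : 0 < c₁) (hm0 : 0 < m₀) (hm1 : m₀ ≤ 1)
    (hm : m₀ * (G + N / R) ≤ m z) (hF : c₁ * (N + G) ^ 2 ≤ σ.F W z)
    (hF' : c₁ * (N + G) ^ 2 ≤ τ.F W z) (hε : 0 < ε)
    (hN : Kn a C C₁ ≤ ε * (m₀ ^ 2 * c₁) * N)
    (ct : ∀ (A : ι → ℝ) (B : κ → ℝ), m z * (ss σ A z + ss τ B z) ≤
      Ch.TH σ τ W z A B + tc σ c W z A + tc τ c' W z B) :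
    Cert σ τ (fun _ => 0) (fun _ => 0) W m c c' ε z := by
  have hN0 : 0 < N := by linarith
  have hR0 : 0 < R := by linarith
  have C0 := b.C0
  obtain ⟨k1, k2, k3, k4, k0⟩ := Kn_ge (a := a) (C₁ := C₁) C0 h1
  obtain ⟨p1, p2⟩ := ar1 (δ := δ) h1 hN0 hG hR b.k0 hK hδ
  have q1 := ar2 hN0 hG hR hc hm0 hm hF
  have q2 := ar2 hN0 hG hR hc hm0 hm hF'
  have XY := ar3 (G := G) hN1 hG hR
  have hs := sml_n hm0 hm1 hc hN0 hε hN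
  have X0 : 0 ≤ G + N / R := by positivity
  have n2 : 0 ≤ (N + G) ^ 2 := sq_nonneg _
  have Y0 : 0 ≤ (G + N / R) * (N + G) ^ 2 / N := by positivity
  generalize hY : (G + N / R) * (N + G) ^ 2 / N = Y at p1 p2 q1 q2 XY Y0
  have mz0 : 0 ≤ m z := (mul_nonneg hm0.le X0).trans hm
  have F0 : 0 ≤ σ.F W z := (mul_nonneg hc.le n2).trans hF
  have F0' : 0 ≤ τ.F W z := (mul_nonneg hc.le n2).trans hF'
  have mF : 0 ≤ m z * σ.F W z := mul_nonneg mz0 F0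
  have mF' : 0 ≤ m z * τ.F W z := mul_nonneg mz0 F0'
  have g0 : K ^ 2 + δ * (N + G) ^ 2 ≤ (C₁ ^ 2 + C₁) * Y := by linarith
  have Kd : 0 ≤ K ^ 2 + δ * (N + G) ^ 2 := add_nonneg (sq_nonneg _) (mul_nonneg b.δ0 n2)
  have cι : (0 : ℝ) ≤ Fintype.card ι := Nat.cast_nonneg _
  have cκ : (0 : ℝ) ≤ Fintype.card κ := Nat.cast_nonneg _
  have e1 : |M2 σ τ W W z| ≤ a ^ 4 * C ^ 4 * C₁ ^ 2 * Y := m2_ar cι ha cκ ha' C0 p1 b.M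
  have CK : C * K ≤ C * C₁ * Y := by
    rw [mul_assoc]
    exact mul_le_mul_of_nonneg_left (hK.trans (mul_le_mul_of_nonneg_left XY h1)) C0
  have l1 := b.L11.trans CK
  have l2 := b.L22.trans CK
  have l3 := b.L12.trans CK
  have D0 : 0 ≤ a ^ 2 * C ^ 3 := by positivity
  have N' := k3.trans hN
  exact
    { ct := ct
      g1 := (g2_ar cι ha g0 Kd (b.G1 ok u1 hL hW hz)).trans (gen Y0 k1 k0 mF q1 hs)
      g2 := (g2_ar cκ ha' g0 Kd (b.G2 ot u1' hL' hW hz)).trans (gen Y0 k1 k0 mF' q2 hs)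
      g3 := prod2 hε.le mF (e1.trans (gen Y0 k2 k0 mF q1 hs)) (e1.trans (gen Y0 k2 k0 mF' q2 hs))
      t1 := tt hN1 hG hc.le hε.le b.k0 hm0.le X0 D0 hK hm hF N'
        (t_ar cι ha C0 (G_le b.s1 b.D11 b.D11))
      t2 := tt hN1 hG hc.le hε.le b.k0 hm0.le X0 D0 hK hm hF' N'
        (t_ar cι ha C0 (G_le b.s1 b.D12 b.D12))
      t3 := tt hN1 hG hc.le hε.le b.k0 hm0.le X0 D0 hK hm hF N'
        (t_ar cκ ha' C0 (G_le b.s2 b.D21 b.D21))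
      t4 := tt hN1 hG hc.le hε.le b.k0 hm0.le X0 D0 hK hm hF' N'
        (t_ar cκ ha' C0 (G_le b.s2 b.D22 b.D22))
      l1 := l1.trans (gen Y0 k4 k0 mF q1 hs)
      l2 := l2.trans (gen Y0 k4 k0 mF' q2 hs)
      l3 := prod2 hε.le mF (l3.trans (gen Y0 k4 k0 mF q1 hs)) (l3.trans (gen Y0 k4 k0 mF' q2 hs))
      p1 := by
        unfold Sl.Γ
        simp [Sl.D]
      p2 := by
        unfold Sl.Γ
        simp [Sl.D] }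

/-- **The total inequality near the diagonal.** -/
theorem tot_of_B0 {ι : Type*} [Fintype ι] {σ τ : Sl E ι} {c c' : ι → E → ℝ} {η : ℝ}
    (hη : 0 < η) (b : B0 σ τ W z C (N + G) K δ) (ok : σ.Ok U θ) (ot : τ.Ok U θ')
    (u1 : ∀ z, σ.ρ z = 1) (u1' : ∀ z, τ.ρ z = 1) (hL : Ch.Lx σ U) (hL' : Ch.Lx τ U)
    (hW : Sm U W) (hz : z ∈ U) (ps : ∀ A : ι → ℝ, 0 ≤ ss σ A z) (pt : ∀ A : ι → ℝ, 0 ≤ ss τ A z)
    (hN1 : 1 ≤ N) (hG : 0 ≤ G) (hR : 1 ≤ R) (h1 : 0 ≤ C₁)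
    (hK : K ≤ C₁ * (G + N / R)) (hδ : δ ≤ C₁ / R) (hc : 0 < c₁) (hm0 : 0 < m₀) (hm1 : m₀ ≤ 1)
    (hm : m₀ * (G + N / R) ≤ m z) (hF : c₁ * (N + G) ^ 2 ≤ σ.F W z)
    (hF' : c₁ * (N + G) ^ 2 ≤ τ.F W z)
    (hN : Kn (Fintype.card ι) C C₁ ≤ η / 52 * (m₀ ^ 2 * c₁) * N)
    (ct : ∀ A B : ι → ℝ, m z * (ss σ A z + ss τ B z) ≤
      Ch.TH σ τ W z A B + tc σ c W z A + tc τ c' W z B) :
    H747.A.Tot σ τ (fun _ => 0) (fun _ => 0) W m c c' η z := by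
  have X0 : 0 ≤ G + N / R := by
    have : 0 < R := by linarith
    positivity
  intro A B x y
  exact tot_near (by positivity : 0 ≤ η / 52) (by linarith) ((mul_nonneg hm0.le X0).trans hm)
    (fun i j => ok.sy i j z) (fun i j => ot.sy i j z) ps pt
    (cert_of_B0 b ok ot u1 u1' hL hL' hW hz le_rfl le_rfl hN1 hG hR h1 hK hδ hc hm0 hm1 hm hF hF'
      (by positivity) hN ct) A B x y

end Vale.Agent.P088.R2.H644.Nr
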