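import Vale.Agent.P088.R2.H349.EP.FuOk
import Vale.Agent.P088.R2.H475.INF.LevD
import Vale.Agent.P088.R2.H657.W.Fam
import Vale.Agent.P088.R2.H313.MuR

/-!
# P088, stage 3: the families of the package

For fixed constants before `M₀` all data `(q, d)` of the package form a family `Fa n q₀`; on the
levels below `l₀ + 3 R` the level, the tensors, the correction and the slope satisfy the hypotheses
`Lg`, `Tn`, `Mc`, `Pc` of `SymV`, `SymW` with uniform constants.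
-/

open Set Filter
open scoped ContDiff Topology Matrix

noncomputable section

namespace Vale.Agent.P088.R2.H644.Pf

open Vale.Agent.P088.LR Vale.Agent.P088.HY Vale.Agent.P088.R2.H644.Sy
open Vale.Agent.P088.R2.H464.Cu Vale.Agent.P088.R2.H31.EP Vale.Agent.P088.R2.H644.Ep
open Vale.Agent.P088.R2.H657.W

variable {n k : ℕ} {q q₀ : Cst} {d : Pk n}

/-! ## The conditions on the constants -/

/-- The conditions on the constants. -/
structure Gc (n : ℕ) (q : Cst) : Prop where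
  e0 : 0 < q.e₁
  nm1 : 1 ≤ q.nm
  c0 : 0 < q.c₀
  rT : 0 < q.rT
  Cs1 : 1 ≤ q.Cs
  σ0 : 0 < q.σ
  σ1 : q.σ ≤ 1 / 5000
  L2 : 2 ≤ q.L
  CT : 0 < q.ph.CT
  Cb : 0 < q.ph.Cb
  M1 : Real.exp 1 ≤ q.M₀
  r1 : 400 ≤ (q.r₁ * Real.exp (-1)) ^ 2
  ε0 : 0 < q.ε
  ε1 : q.ε ≤ 1
  nε : n * q.ε ≤ 1 / 2
  nε' : n * (cG n 12 * q.ε) ≤ 1 / 2
  R1 : 1 ≤ q.R
  lR : Real.log q.M₀ ≤ q.R
  Ck : 1 ≤ q.Ck
  RR : 100 ≤ q.R

theorem Gc.ev (n : ℕ) : EvC (Gc n) := by
  have h1 : EvC fun q => q.σ ≤ 1 / 5000 :=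
    EvC.at_σ (fun _ t => t ≤ 1 / 5000) fun _ => sml_le (by norm_num)
  have h2 : EvC fun q => Real.exp 1 ≤ q.M₀ :=
    EvC.at_M₀ (fun _ t => Real.exp 1 ≤ t) fun _ => eventually_ge_atTop _
  have h3 : EvC fun q => 0 < q.c' → 20 ≤ q.c' * q.M₀ / 2 * Real.exp (-1) := by
    refine EvC.at_M₀ (fun q t => 0 < q.c' → 20 ≤ q.c' * t / 2 * Real.exp (-1)) fun q => ?_
    by_cases h : 0 < q.c'
    · refine ev_top (40 * Real.exp 1 / q.c') fun t ht _ => ?_
      rw [div_le_iff₀ h] at ht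
      rw [Real.exp_neg, ← div_eq_mul_inv, le_div_iff₀ (Real.exp_pos 1)]
      linarith
    · exact Eventually.of_forall fun _ h' => absurd h' h
  have h4 : EvC fun q => q.ε ≤ 1 :=
    EvC.at_ε (fun _ t => t ≤ 1) fun _ => sml_le (by norm_num)
  have h5 : EvC fun q => n * q.ε ≤ 1 / 2 ∧ n * (cG n 12 * q.ε) ≤ 1 / 2 := by
    refine EvC.at_ε (fun _ t => n * t ≤ 1 / 2 ∧ n * (cG n 12 * t) ≤ 1 / 2) fun _ => ?_
    have hc := cG_nn n 12
    refine ev_sml (a := 1 / (2 * (n * (1 + cG n 12) + 1))) (by positivity) fun t ht h => ?_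
    rw [le_div_iff₀ (by positivity)] at h
    have hn : (0 : ℝ) ≤ n := Nat.cast_nonneg n
    constructor
    · nlinarith [mul_nonneg (mul_nonneg hn hc) ht.le]
    · nlinarith [mul_nonneg (mul_nonneg hn hc) ht.le, mul_nonneg hn ht.le]
  have h6 : EvC fun q => Real.log q.M₀ ≤ q.R ∧ 100 ≤ q.R :=
    EvC.at_R (fun q t => Real.log q.M₀ ≤ t ∧ 100 ≤ t) fun q =>
      (eventually_ge_atTop _).and (eventually_ge_atTop _)
  refine (((((((EvC.pos.and EvC.good).and h1).and h2).and h3).and h4).and h5).and h6).mono ?_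
  rintro q ⟨⟨⟨⟨⟨⟨⟨⟨⟨a1, a2, a3, a4, a5, a6, a7, a8, a9, a10⟩, ⟨b1, b2, b3, b4, b5, b6, b7⟩,
    b8, b9, b10, b11, b12, b13⟩, ⟨c1, c2, -⟩, c3⟩, d1⟩, d2⟩, d3⟩, d4⟩, d5, d6⟩, d7, d8⟩
  have d3' := d3 b3
  exact
    { e0 := a2
      nm1 := a3
      c0 := a6
      rT := a8
      Cs1 := b5
      σ0 := b2
      σ1 := d1
      L2 := c2
      CT := c1.CT0
      Cb := c1.Cb0
      M1 := d2
      r1 := by
        unfold Cst.r₁
        nlinarith
      ε0 := b10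
      ε1 := d4
      nε := d5
      nε' := d6
      R1 := b13
      lR := d7
      Ck := b12
      RR := d8 }

/-- **The family of all data with given constants before `M₀`.** -/
structure Fa (n : ℕ) (q₀ : Cst) where
  /-- the constants -/
  q : Cst
  /-- the data -/
  d : Pk n
  eq : q.b_M₀ = q₀
  g : Gc n q
  ok : PkOk q d

theorem Fa.σ (a : Fa n q₀) : a.q.σ = q₀.σ := by
  have h := congrArg Cst.σ a.eq
  exact h

theorem Fa.e₁ (a : Fa n q₀) : a.q.e₁ = q₀.e₁ := by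
  have h := congrArg Cst.e₁ a.eq
  exact h

theorem Fa.ph (a : Fa n q₀) : a.q.ph = q₀.ph := by
  have h := congrArg Cst.ph a.eq
  exact h

theorem Fa.phL (a : Fa n q₀) : a.q.phL = q₀.phL := by
  have h := congrArg Cst.phL a.eq
  exact h

theorem Fa.L (a : Fa n q₀) : a.q.L = q₀.L := by
  have h := congrArg Cst.L a.eq
  exact h

/-- **The choice of uniform constants.** -/
theorem Fa.choose {P : (q : Cst) → Pk n → ℝ → Prop}
    (h : ∀ q₀, ∃ C, ∀ a : Fa n q₀, P a.q a.d C) : ∃ C : Cst → ℝ, NB_M₀ C ∧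
    ∀ q, Gc n q → ∀ d : Pk n, PkOk q d → P q d (C q) := by
  choose C hC using h
  refine ⟨fun q => C q.b_M₀, fun q => rfl, fun q hq d hd => ?_⟩
  exact hC q.b_M₀ ⟨q, d, rfl, hq, hd⟩

/-! ## The level -/

/-- The levels below `l₀ + 3 R`. -/
def OO (q : Cst) (d : Pk n) : Set (V n) := {x | d.l x < d.l₀ q + 3 * q.R}

theorem lam_eq (q : Cst) (d : Pk n) : H475.lam0 q.R d.kap d.Gs = d.l₀ q := rfl

theorem OO_open (h : PkOk q d) : IsOpen (OO q d) :=
  isOpen_lt h.lev.sm.continuous continuous_const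

theorem wR_mid (σ R : ℝ) (z : VV n) (i : Fin n) : H475.wR n σ R (mid z) i =
    1 / 2 * (H475.wR n σ R z.1 i + H475.wR n σ R z.2 i) := by
  simp only [H475.wR, H475.wv, mid, Pi.smul_apply, Pi.add_apply, smul_eq_mul]
  ring

theorem sq_mid (σ R : ℝ) (z : VV n) : HY.sq (H475.wR n σ R (mid z)) ≤
    1 / 2 * (HY.sq (H475.wR n σ R z.1) + HY.sq (H475.wR n σ R z.2)) := by
  unfold HY.sq
  rw [← Finset.sum_add_distrib, Finset.mul_sum]
  refine Finset.sum_le_sum fun i _ => ?_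
  rw [wR_mid]
  nlinarith [sq_nonneg (H475.wR n σ R z.1 i - H475.wR n σ R z.2 i)]

/-- The level of the midpoint is at most the larger level. -/
theorem l_mid (hg : Gc n q) (h : PkOk q d) (z : VV n) : d.l (mid z) ≤ max (d.l z.1) (d.l z.2) := by
  have hR : 0 < q.R := by linarith [hg.R1]
  have h1 := sq_mid (n := n) q.σ q.R z
  rw [h.lev.lit]
  rcases le_total (HY.sq (H475.wR n q.σ q.R z.1)) (HY.sq (H475.wR n q.σ q.R z.2)) with h2 | h2
  · refine le_max_of_le_right ((H475.levG_le_iff hg.σ0 hg.σ1 hR _ _).2 ?_)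
    linarith
  · refine le_max_of_le_left ((H475.levG_le_iff hg.σ0 hg.σ1 hR _ _).2 ?_)
    linarith

theorem OO_mid (hg : Gc n q) (h : PkOk q d) {z : VV n} (h1 : z.1 ∈ OO q d) (h2 : z.2 ∈ OO q d) :
    mid z ∈ OO q d := lt_of_le_of_lt (l_mid hg h z) (max_lt h1 h2)

/-- The norm of a functional. -/
theorem opn_le (L : V n →L[ℝ] ℝ) {c : ℝ} (hc : 0 ≤ c) (h : ∀ i, |L (Pi.single i 1)| ≤ c) :
    ‖L‖ ≤ n * c := by
  refine ContinuousLinearMap.opNorm_le_bound _ (by positivity) fun v => ?_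
  have e : L v = ∑ i, v i * L (Pi.single i 1) := by
    conv_lhs => rw [pi_eq_sum_univ' v]
    rw [map_sum]
    refine Finset.sum_congr rfl fun i _ => ?_
    rw [map_smul, smul_eq_mul]
  rw [e, Real.norm_eq_abs]
  refine (Finset.abs_sum_le_sum_abs _ _).trans ?_
  calc ∑ i, |v i * L (Pi.single i 1)| ≤ ∑ _i : Fin n, ‖v‖ * c := by
        refine Finset.sum_le_sum fun i _ => ?_
        rw [abs_mul]
        exact mul_le_mul (norm_le_pi_norm v i) (h i) (abs_nonneg _) (norm_nonneg v)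
    _ = n * c * ‖v‖ := by
        rw [Finset.sum_const, Finset.card_univ, Fintype.card_fin, nsmul_eq_mul]; ring

/-- The gradient of the level. -/
theorem l_grad (hg : Gc n q) (h : PkOk q d) {x : V n} (hx : x ∈ OO q d) :
    ∑ i, pd i d.l x ^ 2 ≤ 1 + 10 * q.σ := by
  have hR : 0 < q.R := by linarith [hg.R1]
  have h1 : H475.levG n q.σ q.R d.kap d.Gs x ≤ H475.lam0 q.R d.kap d.Gs + 5 * q.R := by
    rw [← h.lev.lit, lam_eq]
    have : d.l x < d.l₀ q + 3 * q.R := hx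
    linarith
  rw [h.lev.lit]
  exact H475.grad_levG_le' hg.σ0 hg.σ1 hR h1

theorem l_pd (hg : Gc n q) (h : PkOk q d) {x : V n} (hx : x ∈ OO q d) (i : Fin n) :
    |pd i d.l x| ≤ 2 := by
  have h1 := l_grad hg h hx
  have h2 := Finset.single_le_sum (f := fun i => pd i d.l x ^ 2) (fun j _ => sq_nonneg _)
    (Finset.mem_univ i)
  have h3 := hg.σ1
  have h4 : pd i d.l x ^ 2 ≤ 2 ^ 2 := by
    linarith
  exact abs_le_of_sq_le_sq h4 (by norm_num)

/-- **The derivative of the level is a symbol of size one at the scale `R`.** -/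
theorem s_dl (hn : 1 ≤ n) (q₀ : Cst) (k : ℕ) :
    Sf (fun a : Fa n q₀ => OO a.q a.d) (fun a _ => a.q.R) (fun _ _ => 1) k
      (fun a => fderiv ℝ a.d.l) where
  sm a := ((a.ok.lev.sm).fderiv_right (m := ∞) (by simp)).contDiffOn
  bd j _ := by
    rcases j with _ | j
    · refine ⟨n * 2, fun a x hx => ?_⟩
      rw [norm_iteratedFDeriv_zero, pow_zero, mul_one, mul_one]
      exact opn_le _ (by norm_num) fun i => l_pd a.g a.ok hx i
    · by_cases h : 0 < q₀.σ ∧ q₀.σ ≤ 1 / 5000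
      · obtain ⟨C, -, hC⟩ := H475.levG_bound (n := n) hn h.1 h.2 j
        refine ⟨C, fun a x _ => ?_⟩
        rw [norm_iteratedFDeriv_fderiv, one_mul, a.ok.lev.lit, a.σ]
        exact hC a.q.R a.d.kap a.d.Gs (by linarith [a.g.R1]) x
      · refine ⟨0, fun a x _ => absurd ⟨?_, ?_⟩ h⟩
        · rw [← a.σ]; exact a.g.σ0
        · rw [← a.σ]; exact a.g.σ1

/-! ## The tensors -/

theorem tn1 (q₀ : Cst) (hk : k + 1 ≤ 12) : Tn (fun a : Fa n q₀ => OO a.q a.d)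
    (fun a => a.d.s₁) (fun a => (a.q.R)⁻¹) k :=
  TR.tn (e := fun a => a.q.ε) (A := 1)
    (fun a => (Rg.t1 a.ok.rg).mono (by linarith [a.g.R1]) hk le_rfl) (fun a => OO_open a.ok)
    (fun a => a.g.R1) (fun a => a.g.ε0.le) fun a => a.g.ε1

theorem tn2 (q₀ : Cst) (hk : k + 1 ≤ 12) : Tn (fun a : Fa n q₀ => OO a.q a.d)
    (fun a => a.d.s₂) (fun a => (a.q.R)⁻¹) k :=
  TR.tn (e := fun a => a.q.ε) (A := 1)
    (fun a => (Rg.t2 a.ok.rg).mono (by linarith [a.g.R1]) hk le_rfl) (fun a => OO_open a.ok)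
    (fun a => a.g.R1) (fun a => a.g.ε0.le) fun a => a.g.ε1

/-- **`Lg` for the family.** -/
theorem lgI (hn : 1 ≤ n) (hk : k + 1 ≤ 12) {U : Fa n q₀ → Set (VV n)} {A : ℝ}
    (hU : ∀ a, IsOpen (U a)) (h1 : ∀ a, ∀ z ∈ U a, z.1 ∈ OO a.q a.d)
    (h2 : ∀ a, ∀ z ∈ U a, z.2 ∈ OO a.q a.d)
    (hr : ∀ a, ∀ z ∈ U a, √(a.d.r2 z) ≤ A * a.q.R) :
    Lg (fun a : Fa n q₀ => OO a.q a.d) U (fun a => a.q.R) (fun a => a.d.l)
      (fun a => gi a.d.s₁) A k :=
  lg_of (K := 12) (fun a => Rg.t1 a.ok.rg) hk (by norm_num) (fun a => OO_open a.ok) hU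
    (fun a => a.g.R1) (fun a => a.g.ε0.le) (fun a => a.g.ε1) (fun a => a.g.nε)
    (fun a => a.g.nε') h1 h2 (fun a z hz => OO_mid a.g a.ok (h1 a z hz) (h2 a z hz))
    (fun a => a.ok.lev.sm.contDiffOn) (s_dl hn q₀ k) hr

/-- The metric is smooth everywhere, `r² ≥ 0`. -/
theorem gi_tr (hg : Gc n q) (h : PkOk q d) : TR 12 (cG n 12 * q.ε) q.R (gi d.s₁) :=
  (Rg.t1 h.rg).inv (by linarith [hg.R1]) hg.ε1 hg.nε

theorem r2_sm (hg : Gc n q) (h : PkOk q d) : ContDiff ℝ ∞ d.r2 := by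
  have h1 := (gi_tr hg h).nr (by norm_num) univ
  rw [← contDiffOn_univ]
  exact contDiffOn_const.mul ((sm_rq h1.sm).mono fun z _ => mem_univ _)

theorem r2_nn (hg : Gc n q) (h : PkOk q d) (z : VV n) : 0 ≤ d.r2 z := by
  have h1 := (gi_tr hg h).nr (by norm_num) univ
  exact mul_nonneg zero_le_two ((mul_nonneg (by norm_num)
    (Finset.sum_nonneg fun i _ => mul_self_nonneg _)).trans (rq_bd h1 hg.nε' (mem_univ _)).1)

/-- `|x_i - y_i| ≤ 3 r`. -/
theorem dif_r (hg : Gc n q) (h : PkOk q d) (z : VV n) (i : Fin n) :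
    |dif z i| ≤ 3 * √(d.r2 z) := by
  have h1 := (gi_tr hg h).nr (by norm_num) univ
  refine (dif_le h1 hg.nε' (mem_univ _) i).trans (mul_le_mul_of_nonneg_left ?_ (by norm_num))
  refine Real.sqrt_le_sqrt ?_
  have h2 := r2_nn hg h z
  unfold Pk.r2 Vale.Agent.P088.R2.H31.EP.r2 at *
  linarith

end Vale.Agent.P088.R2.H644.Pf
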