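import Vale.Agent.P088.R2.H644.N.PkL

/-!
# P088, stage 3: the correction and the slope of the package as families
-/

open Set Filter
open scoped ContDiff Topology Matrix

noncomputable section

namespace Vale.Agent.P088.R2.H644.Pf

open Vale.Agent.P088.LR Vale.Agent.P088.HY Vale.Agent.P088.R2.H644.Sy
open Vale.Agent.P088.R2.H464.Cu Vale.Agent.P088.R2.H31.EP Vale.Agent.P088.R2.H644.Ep
open Vale.Agent.P088.R2.H657.W
open Vale.Agent.P088.R2.H313.Ph (Bd)
open Vale.Agent.P088.R2.H313.Mu (b0 b1 sw)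

variable {n k : ℕ} {q q₀ : Cst} {d : Pk n}

/-! ## The cut-off of the correction -/

/-- The cut-off at the scale one. -/
def cc (x : ℝ) : ℝ := 1 - Real.smoothTransition (2 * x - 1)

theorem cc_sm : ContDiff ℝ ∞ cc :=
  contDiff_const.sub (Real.smoothTransition.contDiff.comp
    ((contDiff_const.mul contDiff_id).sub contDiff_const))

theorem cc_bd (k : ℕ) : ∃ C, 0 ≤ C ∧ ∀ x, |iteratedDeriv k cc x| ≤ C := by
  have hc : Continuous (iteratedDeriv k cc) :=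
    cc_sm.continuous_iteratedDeriv k (by exact_mod_cast le_top)
  obtain ⟨A, hA⟩ := (isCompact_Icc (a := (0 : ℝ)) (b := 2)).exists_bound_of_continuousOn
    hc.continuousOn
  refine ⟨1 + |A|, by positivity, fun s => ?_⟩
  have hA0 := abs_nonneg A
  have hc1 : ∀ c : ℝ, |c| ≤ 1 → |iteratedDeriv k (fun _ : ℝ => c) s| ≤ 1 + |A| := fun c h => by
    rw [iteratedDeriv_const]
    split_ifs
    · linarith
    · rw [abs_zero]; linarith
  rcases lt_or_ge s 0 with hs | hs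
  · have : cc =ᶠ[𝓝 s] fun _ => (1 : ℝ) := by
      filter_upwards [Iio_mem_nhds hs] with y hy
      rw [cc, Real.smoothTransition.zero_of_nonpos (by linarith [(show y < 0 from hy)]), sub_zero]
    rw [this.iteratedDeriv_eq]
    exact hc1 1 (by simp)
  · rcases lt_or_ge 2 s with hs' | hs'
    · have : cc =ᶠ[𝓝 s] fun _ => (0 : ℝ) := by
        filter_upwards [Ioi_mem_nhds hs'] with y hy
        rw [cc, Real.smoothTransition.one_of_one_le (by linarith [(show 2 < y from hy)]), sub_self]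
      rw [this.iteratedDeriv_eq]
      exact hc1 0 (by simp)
    · have a1 := hA s ⟨hs, hs'⟩
      rw [Real.norm_eq_abs] at a1
      have := le_abs_self A
      linarith

/-- The cut-off at the scale `R`. -/
def cR (R t s : ℝ) : ℝ := cc ((s - t) / R)

theorem cR_sm (R t : ℝ) : ContDiff ℝ ∞ (cR R t) :=
  cc_sm.comp ((contDiff_id.sub contDiff_const).div_const R)

theorem cR_it {R t : ℝ} (k : ℕ) (s : ℝ) :
    iteratedDeriv k (cR R t) s = R⁻¹ ^ k * iteratedDeriv k cc ((s - t) / R) := by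
  have e : cR R t = fun s => (fun x => cc (x - t / R)) (R⁻¹ * s) := by
    funext s
    unfold cR
    congr 1
    rw [sub_div]
    congr 1
    rw [div_eq_inv_mul]
  have h1 : ContDiff ℝ k (fun x => cc (x - t / R)) :=
    (cc_sm.comp (contDiff_id.sub contDiff_const)).of_le (by exact_mod_cast le_top)
  have h2 := congrFun (iteratedDeriv_comp_const_mul h1 R⁻¹) s
  have h3 : iteratedDeriv k (fun x => cc (x - t / R)) (R⁻¹ * s) =
      iteratedDeriv k cc (R⁻¹ * s - t / R) := by rw [iteratedDeriv_comp_sub_const]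
  have h4 : R⁻¹ * s - t / R = (s - t) / R := by rw [sub_div, div_eq_inv_mul s]
  rw [e]
  refine h2.trans ?_
  rw [h3, h4]

theorem μc_eq_cR (d : Pk n) (q : Cst) : d.μc q = fun s => d.μ s * cR q.R (d.l₀ q) s := rfl

/-! ## The correction -/

theorem b1_eq (hg : Gc n q) : b1 1 q.M₀ = b0 1 q.M₀ * Real.log q.M₀ := by
  have hM : 0 < q.M₀ := lt_of_lt_of_le (Real.exp_pos 1) hg.M1
  have hl : 1 ≤ Real.log q.M₀ := by rw [Real.le_log_iff_exp_le hM]; exact hg.M1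
  have hl0 : 0 < Real.log q.M₀ := by linarith
  unfold b1 b0
  rw [one_mul, one_mul]
  conv_rhs => rw [← Real.rpow_one (Real.log q.M₀)]
  rw [← Real.rpow_mul hl0.le, one_mul, ← Real.rpow_add hl0]
  norm_num

theorem b0_pos (hg : Gc n q) : 0 < b0 1 q.M₀ := by
  have hM : 0 < q.M₀ := lt_of_lt_of_le (Real.exp_pos 1) hg.M1
  have hl : 1 ≤ Real.log q.M₀ := by rw [Real.le_log_iff_exp_le hM]; exact hg.M1
  unfold b0
  rw [one_mul]
  exact Real.rpow_pos_of_pos (by linarith) _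

theorem b1_le1 (hg : Gc n q) : b1 1 q.M₀ ≤ 1 := by
  have hM : 0 < q.M₀ := lt_of_lt_of_le (Real.exp_pos 1) hg.M1
  have hl : 1 ≤ Real.log q.M₀ := by rw [Real.le_log_iff_exp_le hM]; exact hg.M1
  unfold b1
  rw [one_mul]
  exact Real.rpow_le_one_of_one_le_of_nonpos hl (by norm_num)

theorem b1_R (hg : Gc n q) : b1 1 q.M₀ / q.R ≤ b0 1 q.M₀ := by
  have hR : 0 < q.R := by linarith [hg.R1]
  rw [b1_eq hg, div_le_iff₀ hR]
  exact mul_le_mul_of_nonneg_left hg.lR (b0_pos hg).le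

/-- The derivatives of the correction. -/
theorem μc_bd (n : ℕ) (j : ℕ) : ∃ C, 0 ≤ C ∧ ∀ q, Gc n q → ∀ d : Pk n, PkOk q d → ∀ t,
    |iteratedDeriv (j + 1) (d.μc q) t| ≤ C * b0 1 q.M₀ := by
  choose Ac hA0 hA using cc_bd
  set Λ := {p : Cst × Pk n // Gc n p.1 ∧ PkOk p.1 p.2}
  have hR : ∀ a : Λ, 0 < a.1.1.R := fun a => by linarith [a.2.1.R1]
  have sμ : ∀ a : Λ, ContDiff ℝ ∞ a.1.2.μ := fun a => a.2.2.ph.isμ.sm
  -- the two families
  have f1 : Bd (fun (a : Λ) _ => b0 1 a.1.1.M₀) fun a => deriv a.1.2.μ := by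
    refine ⟨fun a => (contDiff_infty_iff_deriv.1 (sμ a)).2, fun k => ?_⟩
    refine ⟨|muC k|, abs_nonneg _, fun a u => ?_⟩
    rw [← iteratedDeriv_succ']
    exact (a.2.2.ph.isμ.bj k u).trans
      (mul_le_mul_of_nonneg_right (le_abs_self _) (b0_pos a.2.1).le)
  have f2 : Bd (fun (a : Λ) _ => b1 1 a.1.1.M₀) fun a => a.1.2.μ := by
    refine ⟨sμ, fun k => ?_⟩
    rcases k with _ | k
    · refine ⟨6, by norm_num, fun a u => ?_⟩
      rw [iteratedDeriv_zero]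
      have := a.2.2.ph.isμ.bd u
      unfold b1
      linarith
    · refine ⟨|muC k|, abs_nonneg _, fun a u => ?_⟩
      refine (a.2.2.ph.isμ.bj k u).trans ?_
      have h1 := b0_pos a.2.1
      have h2 := H313.Mu.b0_le_b1 one_pos a.2.1.M1
      exact mul_le_mul (le_abs_self _) h2 h1.le (abs_nonneg _)
  have f3 : Bd (fun (_ : Λ) _ => (1 : ℝ)) fun a => cR a.1.1.R (a.1.2.l₀ a.1.1) := by
    refine ⟨fun a => cR_sm _ _, fun k => ⟨Ac k, hA0 k, fun a u => ?_⟩⟩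
    rw [cR_it, abs_mul, mul_one, abs_of_nonneg (pow_nonneg (inv_nonneg.2 (hR a).le) k)]
    refine (mul_le_mul_of_nonneg_left (hA k _) (pow_nonneg (inv_nonneg.2 (hR a).le) k)).trans ?_
    exact mul_le_of_le_one_left (hA0 k)
      (pow_le_one₀ (inv_nonneg.2 (hR a).le) (inv_le_one_of_one_le₀ a.2.1.R1))
  have f4 : Bd (fun (_ : Λ) _ => (1 : ℝ)) fun a u =>
      a.1.1.R * deriv (cR a.1.1.R (a.1.2.l₀ a.1.1)) u := by
    refine ⟨fun a => contDiff_const.mul (contDiff_infty_iff_deriv.1 (cR_sm _ _)).2,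
      fun k => ⟨Ac (k + 1), hA0 _, fun a u => ?_⟩⟩
    have h1 : ContDiffAt ℝ k (deriv (cR a.1.1.R (a.1.2.l₀ a.1.1))) u :=
      ((contDiff_infty_iff_deriv.1 (cR_sm _ _)).2.of_le (by exact_mod_cast le_top)).contDiffAt
    rw [iteratedDeriv_const_mul _ h1, ← iteratedDeriv_succ', cR_it, abs_mul, abs_mul, mul_one,
      abs_of_pos (hR a), abs_of_nonneg (pow_nonneg (inv_nonneg.2 (hR a).le) _), ← mul_assoc,
      pow_succ', ← mul_assoc, mul_inv_cancel₀ (hR a).ne', one_mul]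
    refine (mul_le_mul_of_nonneg_left (hA _ _) (pow_nonneg (inv_nonneg.2 (hR a).le) k)).trans ?_
    exact mul_le_of_le_one_left (hA0 _)
      (pow_le_one₀ (inv_nonneg.2 (hR a).le) (inv_le_one_of_one_le₀ a.2.1.R1))
  obtain ⟨C1, hC1, B1⟩ := (f1.mul f3).2 j
  obtain ⟨C2, hC2, B2⟩ := (f2.mul f4).2 j
  refine ⟨C1 + C2, by positivity, fun q hq d hd t => ?_⟩
  set a : Λ := ⟨(q, d), hq, hd⟩
  have hRq : 0 < q.R := hR a
  have sd : ContDiff ℝ ∞ d.μ := sμ a
  have sc := cR_sm q.R (d.l₀ q)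
  have e1 : deriv (d.μc q) = fun s => deriv d.μ s * cR q.R (d.l₀ q) s +
      q.R⁻¹ * (d.μ s * (q.R * deriv (cR q.R (d.l₀ q)) s)) := by
    funext s
    rw [μc_eq_cR]
    have h1 : HasDerivAt d.μ (deriv d.μ s) s := (sd.differentiable (by simp) s).hasDerivAt
    have h2 : HasDerivAt (cR q.R (d.l₀ q)) (deriv (cR q.R (d.l₀ q)) s) s :=
      (sc.differentiable (by simp) s).hasDerivAt
    refine (h1.mul h2).deriv.trans ?_
    field_simp
  have sd' : ContDiff ℝ ∞ (deriv d.μ) := (contDiff_infty_iff_deriv.1 sd).2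
  have sc' : ContDiff ℝ ∞ (deriv (cR q.R (d.l₀ q))) := (contDiff_infty_iff_deriv.1 sc).2
  have g1 : ContDiffAt ℝ j (fun s => deriv d.μ s * cR q.R (d.l₀ q) s) t :=
    ((sd'.mul sc).of_le (by exact_mod_cast le_top)).contDiffAt
  have g2 : ContDiffAt ℝ j (fun s => d.μ s * (q.R * deriv (cR q.R (d.l₀ q)) s)) t :=
    ((sd.mul (contDiff_const.mul sc')).of_le (by exact_mod_cast le_top)).contDiffAt
  have g3 : ContDiffAt ℝ j (fun s => q.R⁻¹ * (d.μ s * (q.R * deriv (cR q.R (d.l₀ q)) s))) t :=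
    contDiffAt_const.mul g2
  rw [iteratedDeriv_succ', e1, iteratedDeriv_fun_add g1 g3, iteratedDeriv_const_mul _ g2]
  refine (abs_add_le _ _).trans ?_
  rw [abs_mul, abs_of_pos (inv_pos.2 hRq)]
  have h1 := B1 a t
  have h2 := B2 a t
  have h3 : q.R⁻¹ * |iteratedDeriv j (fun s => d.μ s * (q.R * deriv (cR q.R (d.l₀ q)) s)) t| ≤
      q.R⁻¹ * (C2 * b1 1 q.M₀) := mul_le_mul_of_nonneg_left h2 (inv_nonneg.2 hRq.le)
  have h4 : q.R⁻¹ * (C2 * b1 1 q.M₀) ≤ C2 * b0 1 q.M₀ := by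
    have h5 := mul_le_mul_of_nonneg_left (b1_R hq) hC2
    calc q.R⁻¹ * (C2 * b1 1 q.M₀) = C2 * (b1 1 q.M₀ / q.R) := by rw [div_eq_mul_inv]; ring
      _ ≤ _ := h5
  have h6 : |iteratedDeriv j (fun s => deriv d.μ s * cR q.R (d.l₀ q) s) t| ≤ C1 * b0 1 q.M₀ := h1
  linarith

theorem chi0_sm : ContDiff ℝ ∞ chi0 :=
  Real.smoothTransition.contDiff.comp ((contDiff_const.sub contDiff_id).div_const _)

theorem chi0_1 {t : ℝ} (h : t ≤ 1) : chi0 t = 1 :=
  Real.smoothTransition.one_of_one_le (by linarith)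

theorem chi0_4 {t : ℝ} (h : 4 ≤ t) : chi0 t = 0 :=
  Real.smoothTransition.zero_of_nonpos (by linarith)

/-- **`Mc` for the family.** -/
theorem mcI (n : ℕ) (q₀ : Cst) : Mc (fun a : Fa n q₀ => a.d.F a.q) chi0
    (fun a => b0 1 a.q.M₀) (fun a => b1 1 a.q.M₀) where
  e a := a.ok.eχ
  s := chi0_sm
  c1 _ h := chi0_1 h
  c4 _ h := chi0_4 h
  sμ a := Pk.μc_smooth a.d a.q a.ok.ph.isμ.sm
  b0 a := (b0_pos a.g).le
  b01 a := H313.Mu.b0_le_b1 one_pos a.g.M1
  b1 a := b1_le1 a.g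
  m0 := ⟨6, fun a t => by
    refine (Pk.μc_abs a.d a.q t).trans ?_
    have := a.ok.ph.isμ.bd t
    unfold H313.Mu.b1
    linarith⟩
  mj j := by
    obtain ⟨C, -, hC⟩ := μc_bd n j
    exact ⟨C, fun a t => hC a.q a.g a.d a.ok t⟩

/-- The functions without the correction. -/
def Fz (f : Fu) : Fu := { f with μ := fun _ => 0 }

/-- `Mc` without correction. -/
theorem mcZ (n : ℕ) (q₀ : Cst) : Mc (fun a : Fa n q₀ => Fz (a.d.F a.q)) chi0
    (fun _ => 0) (fun _ => 0) where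
  e a := a.ok.eχ
  s := chi0_sm
  c1 _ h := chi0_1 h
  c4 _ h := chi0_4 h
  sμ a := contDiff_const
  b0 a := le_rfl
  b01 a := le_rfl
  b1 a := zero_le_one
  m0 := ⟨0, fun a t => by simp [Fz]⟩
  mj j := ⟨0, fun a t => by
    have e : iteratedDeriv (j + 1) (Fz (a.d.F a.q)).μ t = 0 := H313.Mu.iter_zero (j + 1) t
    rw [e, abs_zero, zero_mul]⟩

/-! ## The slope -/

theorem N_ge (h : PkOk q d) (u : ℝ) : q.M₀ ≤ deriv d.Φ u := (h.ph.isΦ.n1 u).trans (h.top.l1 u)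

theorem M_pos (hg : Gc n q) : 0 < q.M₀ := lt_of_lt_of_le (Real.exp_pos 1) hg.M1

theorem pc_of {F : Fa n q₀ → Fu} (hF : ∀ a, (F a).Φ = a.d.Φ) : Pc F where
  s a := by rw [hF]; exact a.ok.top.sm
  n a t := by rw [hF]; exact (M_pos a.g).le.trans (N_ge a.ok t)
  k a t := by rw [hF]; exact (a.ok.top.k0 t).le
  kn := ⟨|q₀.L| + 1 / 20, by positivity, fun a t => by
    rw [hF]
    refine (a.ok.top.k2 t).trans (mul_le_mul_of_nonneg_right ?_
      ((M_pos a.g).le.trans (N_ge a.ok t)))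
    rw [a.L]
    linarith [le_abs_self q₀.L]⟩
  kd j := ⟨q₀.phL.1 j, fun a t => by
    rw [hF]
    refine (a.ok.top.kL j t).trans (le_of_eq ?_)
    rw [a.phL]⟩

/-- **`Pc` for the family.** -/
theorem pcI (n : ℕ) (q₀ : Cst) : Pc (fun a : Fa n q₀ => a.d.F a.q) := pc_of fun _ => rfl

theorem pcZ (n : ℕ) (q₀ : Cst) : Pc (fun a : Fa n q₀ => Fz (a.d.F a.q)) := pc_of fun _ => rfl

/-! ## The profile -/

/-- The profile has all properties. -/
theorem PP.isProf {θ Li ε r₁ δ : ℝ} (h : H644.PP θ Li ε r₁ δ) : ∃ R₁, H644.IsProf θ Li ε r₁ R₁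
    (H644.Ph θ Li ε r₁ δ) (H644.Ph1 θ Li ε r₁ δ) (H644.Ph2 θ Li ε r₁ δ)
    (H644.Lf θ Li ε r₁ δ) (H644.ef θ Li ε r₁ δ) := by
  obtain ⟨R₁, hR, hR1⟩ := h.exists_R
  refine ⟨R₁, ?_⟩
  exact
    { sm := h.contDiff_Ph
      d2 := h.d2_Ph
      eq0 := fun s hs => h.Ph_eq hs
      eq1 := fun s hs => h.Ph1_eq hs
      eq2 := fun s hs => h.Ph2_eq hs
      pos := fun s hs => h.S_pos hs
      pos1 := fun s hs => h.Ph1_pos hs
      smL := h.contDiffOn_Lf
      sme := h.contDiffOn_ef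
      dS := fun r hr => h.hasDerivAt_S hr
      dL := fun r hr => h.hasDerivAt_Lf hr
      one := fun r hr => h.Ph1_L hr
      two := fun r hr => h.Ph2_L hr
      L_near := fun r hr h1 => h.Lf_eq hr h1
      e_near := fun r hr h1 => h.ef_eq hr h1
      e_nonneg := fun r hr => h.ef_nonneg hr
      e_le := fun r hr => h.ef_le hr
      Li_pos := h.L0
      Li_le := fun r => h.Li_le r
      L_le := fun r hr => h.Lf_le hr
      anti := h.antitone_Lf
      r_lt := hR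
      L_far := fun r hr => (hR1 r hr).1
      e_far := fun r hr => (hR1 r hr).2
      S_far := fun r hr => h.S_far (h.r0.trans hR) (fun r hr => (hR1 r hr).1) hr
      bd := fun k c₀ hc => h.exists_bound k hc }

/-- **The profile of the package is a symbol off the diagonal.** -/
theorem lsI {e₁ c : ℝ} (he : 0 < e₁) (hc : 0 < c) :
    H644.Ch.LS c (prS e₁) (H644.Ph1 2 Li e₁ rp dp) := by
  obtain ⟨R₁, h⟩ := PP.isProf (H349.EP.pp_ok he)
  exact H644.Ch.LS.prof h hc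

theorem prS_sm {e₁ : ℝ} (he : 0 < e₁) : ContDiff ℝ ∞ (prS e₁) := (H349.EP.pp_ok he).contDiff_Ph

theorem prS_mono {e₁ : ℝ} (h : 0 < e₁) : MonotoneOn (prS e₁) (Ici 0) := by
  refine monotoneOn_of_deriv_nonneg (convex_Ici 0) ?_ ?_ ?_
  · exact (prS_sm h).continuous.continuousOn
  · exact ((prS_sm h).differentiable (by simp)).differentiableOn
  · intro s hs
    rw [interior_Ici] at hs
    have h1 : HasDerivAt (prS e₁) (H644.Ph1 2 Li e₁ rp dp s) s := ((H349.EP.pp_ok h).d2_Ph).d1 s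
    rw [h1.deriv]
    exact ((H349.EP.pp_ok h).Ph1_pos (le_of_lt hs)).le

theorem prS_pos {e₁ s : ℝ} (h : 0 < e₁) (hs : 0 < s) : 0 < prS e₁ s :=
  (H349.EP.pp_ok h).S_pos hs

theorem prS_nn {e₁ s : ℝ} (h : 0 < e₁) (hs : 0 ≤ s) : 0 ≤ prS e₁ s := by
  rcases hs.eq_or_lt with h1 | h1
  · rw [← h1, H349.EP.prS_zero]
  · exact (prS_pos h h1).le

end Vale.Agent.P088.R2.H644.Pf
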