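import Vale.Agent.P088.R2.H644.N.PkM

/-!
# P088, stage 3: numbers of the package near the diagonal

`K ≤ C E` where `u ≤ uth` or `N ≤ 4 nm E`, `u ≤ uta`; `N ≤ C E` where `μ ≠ 0`, `r ≤ 2`.
-/

open Set Filter
open scoped ContDiff Topology Matrix

noncomputable section

namespace Vale.Agent.P088.R2.H644.Pf

open Vale.Agent.P088.LR Vale.Agent.P088.HY Vale.Agent.P088.R2.H644.Sy
open Vale.Agent.P088.R2.H464.Cu Vale.Agent.P088.R2.H31.EP Vale.Agent.P088.R2.H644.Ep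
open Vale.Agent.P088.R2.H657.W
open Vale.Agent.P088.R2.H313.Mu (b0 b1 sw)

variable {n k : ℕ} {q q₀ : Cst} {d : Pk n}

/-! ## The slope -/

theorem l0_nn (hg : Gc n q) (h : PkOk q d) : 0 ≤ d.l₀ q := by
  have hR : 0 < q.R := by linarith [hg.R1]
  have h1 : q.R ≤ d.kap := by
    refine le_trans ?_ h.kC
    conv_lhs => rw [← Real.rpow_one q.R]
    exact Real.rpow_le_rpow_of_exponent_le hg.R1 hg.Ck
  have h2 : 0 ≤ Real.log (d.kap / q.R) := Real.log_nonneg ((one_le_div hR).2 h1)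
  have h3 : 0 ≤ -(q.R * d.Gs) := by
    have := mul_nonneg hR.le (neg_nonneg.2 h.G0)
    linarith
  unfold Pk.l₀
  linarith

theorem M_uth (hg : Gc n q) (h : PkOk q d) {u : ℝ} :
    Real.exp (u - d.uth q) * q.M₀ ≤ Real.exp u := by
  have h1 := l0_nn hg h
  have h2 : Real.log q.M₀ ≤ d.uth q := by
    unfold Pk.uth
    linarith [hg.lR, hg.R1]
  have h3 : q.M₀ ≤ Real.exp (d.uth q) := (Real.log_le_iff_le_exp (M_pos hg)).1 h2
  rw [Real.exp_sub, div_mul_eq_mul_div, div_le_iff₀ (Real.exp_pos _)]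
  exact mul_le_mul_of_nonneg_left h3 (Real.exp_pos u).le

variable {u : ℝ}

theorem N_le (hg : Gc n q) (h : PkOk q d) (hu : u ≤ d.uth q) :
    deriv d.Φ u ≤ (1 + q.ph.CT) * (q.ph.Cb * q.M₀) := by
  have h1 := h.top.c1 u hu
  have h2 := h.ph.isΦ.n2 u
  have h3 : Real.exp (u - d.uth q) ≤ 1 := Real.exp_le_one_iff.2 (by linarith)
  have h4 : q.M₀ ≤ deriv d.Φ₁ u := h.ph.isΦ.n1 u
  have h5 := M_pos hg
  refine h1.trans (mul_le_mul ?_ h2 (h5.le.trans h4) ?_)
  · have := mul_le_mul_of_nonneg_left h3 hg.CT.le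
    linarith
  · have := hg.CT
    positivity

/-- **`K ≤ C E` before the second growth.** -/
theorem K_le1 (hg : Gc n q) (h : PkOk q d) (hu : u ≤ d.uth q) :
    deriv (deriv d.Φ) u ≤ (1 + q.ph.CT) ^ 2 * q.ph.Cb * Real.exp u := by
  have h1 := h.top.c1 u hu
  have h2 := h.top.c2 u hu
  have h3 : Real.exp (u - d.uth q) ≤ 1 := Real.exp_le_one_iff.2 (by linarith)
  have hN := h.ph.isΦ.n1 u
  have hN2 := h.ph.isΦ.n2 u
  have hK := h.ph.isΦ.k2 u
  have hK0 := h.ph.isΦ.k0 u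
  have hM := M_pos hg
  have hCT := hg.CT
  have hCb := hg.Cb
  have hMu := M_uth hg h (u := u)
  have he := Real.exp_pos (u - d.uth q)
  have hE := Real.exp_pos u
  set N₁ := deriv d.Φ₁ u with hN₁
  set K₁ := deriv (deriv d.Φ₁) u with hK₁
  set t := Real.exp (u - d.uth q) with ht
  have hN0 : 0 < N₁ := hM.trans_le hN
  have hNp : 0 ≤ deriv d.Φ u := hM.le.trans (N_ge h u)
  have a1 : deriv d.Φ u ≤ (1 + q.ph.CT) * N₁ := by
    refine h1.trans (mul_le_mul_of_nonneg_right ?_ hN0.le)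
    have := mul_le_mul_of_nonneg_left h3 hCT.le
    linarith
  have a2 : K₁ / N₁ * deriv d.Φ u ≤ (1 + q.ph.CT) * K₁ := by
    calc K₁ / N₁ * deriv d.Φ u ≤ K₁ / N₁ * ((1 + q.ph.CT) * N₁) :=
          mul_le_mul_of_nonneg_left a1 (by positivity)
      _ = _ := by field_simp
  have a3 : t * N₁ ≤ q.ph.Cb * Real.exp u := by
    calc t * N₁ ≤ t * (q.ph.Cb * q.M₀) := mul_le_mul_of_nonneg_left hN2 he.le
      _ = q.ph.Cb * (t * q.M₀) := by ring
      _ ≤ _ := mul_le_mul_of_nonneg_left hMu hCb.le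
  have a4 : q.ph.CT * t * deriv d.Φ u ≤ q.ph.CT * (1 + q.ph.CT) * (q.ph.Cb * Real.exp u) := by
    calc q.ph.CT * t * deriv d.Φ u ≤ q.ph.CT * t * ((1 + q.ph.CT) * N₁) :=
          mul_le_mul_of_nonneg_left a1 (by positivity)
      _ = q.ph.CT * (1 + q.ph.CT) * (t * N₁) := by ring
      _ ≤ _ := mul_le_mul_of_nonneg_left a3 (by positivity)
  have a5 : (1 + q.ph.CT) * K₁ ≤ (1 + q.ph.CT) * (q.ph.Cb * Real.exp u) :=
    mul_le_mul_of_nonneg_left hK (by positivity)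
  calc deriv (deriv d.Φ) u ≤ (K₁ / N₁ + q.ph.CT * t) * deriv d.Φ u := h2
    _ = K₁ / N₁ * deriv d.Φ u + q.ph.CT * t * deriv d.Φ u := by ring
    _ ≤ (1 + q.ph.CT) * (q.ph.Cb * Real.exp u) +
        q.ph.CT * (1 + q.ph.CT) * (q.ph.Cb * Real.exp u) := by linarith
    _ = _ := by ring

/-- **`K ≤ C E` while `N ≤ 4 nm E`.** -/
theorem K_le2 (hg : Gc n q) (h : PkOk q d) (hu : u ≤ d.uta q)
    (hN : deriv d.Φ u ≤ 4 * q.nm * Real.exp u) :
    deriv (deriv d.Φ) u ≤ 9 * q.nm * Real.exp u := by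
  have h1 := h.top.k1 u hu
  have h2 : 0 ≤ deriv d.Φ u := (M_pos hg).le.trans (N_ge h u)
  nlinarith

/-- The constant of `K ≤ C E`. -/
def CK (q : Cst) : ℝ := (1 + q.ph.CT) ^ 2 * q.ph.Cb + 9 * q.nm

theorem CK_pos (hg : Gc n q) : 0 < CK q := by
  have := hg.nm1
  have := hg.CT
  have := hg.Cb
  unfold CK
  positivity

theorem K_le (hg : Gc n q) (h : PkOk q d) (hu : u ≤ d.uta q)
    (hN : u ≤ d.uth q ∨ deriv d.Φ u ≤ 4 * q.nm * Real.exp u) :
    deriv (deriv d.Φ) u ≤ CK q * Real.exp u := by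
  have hE := Real.exp_pos u
  have hnm := hg.nm1
  have hCT := hg.CT
  have hCb := hg.Cb
  have a1 : 0 ≤ (1 + q.ph.CT) ^ 2 * q.ph.Cb * Real.exp u := by positivity
  have a2 : 0 ≤ 9 * q.nm * Real.exp u := by positivity
  unfold CK
  rw [add_mul]
  rcases hN with h1 | h1
  · have := K_le1 hg h h1
    linarith
  · have := K_le2 hg h hu h1
    linarith

/-! ## The level of the midpoint -/

theorem wR_seg (σ R : ℝ) (x y : V n) {a b : ℝ} (hab : a + b = 1) (i : Fin n) :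
    H475.wR n σ R (a • x + b • y) i = a * H475.wR n σ R x i + b * H475.wR n σ R y i := by
  simp only [H475.wR, H475.wv, Pi.smul_apply, Pi.add_apply, smul_eq_mul]
  have : b = 1 - a := by linarith
  subst this
  ring

theorem OO_convex (hg : Gc n q) (h : PkOk q d) : Convex ℝ (OO q d) := by
  intro x hx y hy a b ha hb hab
  have hR : 0 < q.R := by linarith [hg.R1]
  have h1 : HY.sq (H475.wR n q.σ q.R (a • x + b • y)) ≤
      a * HY.sq (H475.wR n q.σ q.R x) + b * HY.sq (H475.wR n q.σ q.R y) := by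
    unfold HY.sq
    rw [Finset.mul_sum, Finset.mul_sum, ← Finset.sum_add_distrib]
    refine Finset.sum_le_sum fun i _ => ?_
    rw [wR_seg _ _ _ _ hab]
    have hb' : b = 1 - a := by linarith
    subst hb'
    nlinarith [mul_nonneg (mul_nonneg ha hb)
      (sq_nonneg (H475.wR n q.σ q.R x i - H475.wR n q.σ q.R y i))]
  have h2 : d.l (a • x + b • y) ≤ max (d.l x) (d.l y) := by
    rw [h.lev.lit]
    rcases le_total (HY.sq (H475.wR n q.σ q.R x)) (HY.sq (H475.wR n q.σ q.R y)) with h2 | h2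
    · refine le_max_of_le_right ((H475.levG_le_iff hg.σ0 hg.σ1 hR _ _).2 (h1.trans ?_))
      have := mul_le_mul_of_nonneg_left h2 ha
      have e : b = 1 - a := by linarith
      subst e
      linarith
    · refine le_max_of_le_left ((H475.levG_le_iff hg.σ0 hg.σ1 hR _ _).2 (h1.trans ?_))
      have := mul_le_mul_of_nonneg_left h2 hb
      have e : a = 1 - b := by linarith
      subst e
      linarith
  exact lt_of_le_of_lt h2 (max_lt hx hy)

theorem l_lip (hg : Gc n q) (h : PkOk q d) {x y : V n} (hx : x ∈ OO q d) (hy : y ∈ OO q d) :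
    |d.l x - d.l y| ≤ n * 2 * ‖x - y‖ := by
  have h1 := (OO_convex hg h).norm_image_sub_le_of_norm_fderiv_le
    (f := d.l) (C := n * 2) (fun z _ => h.lev.sm.differentiable (by simp) z)
    (fun z hz => opn_le _ (by norm_num) fun i => l_pd hg h hz i) hy hx
  rwa [Real.norm_eq_abs] at h1

theorem dif_norm (hg : Gc n q) (h : PkOk q d) (z : VV n) : ‖z.1 - z.2‖ ≤ 3 * √(d.r2 z) := by
  rw [pi_norm_le_iff_of_nonneg (by positivity)]
  exact fun i => dif_r hg h z i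

/-- The level at the two points and at the midpoint. -/
theorem l_two (hg : Gc n q) (h : PkOk q d) {z : VV n} (h1 : z.1 ∈ OO q d) (h2 : z.2 ∈ OO q d)
    (hr : d.r2 z ≤ 4) : |d.l z.1 + d.l z.2 - 2 * d.l (mid z)| ≤ 12 * n := by
  have h3 := OO_mid hg h h1 h2
  have h4 : √(d.r2 z) ≤ 2 := by
    rw [Real.sqrt_le_left (by norm_num)]
    linarith
  have h5 := dif_norm hg h z
  have e1 : z.1 - mid z = (1 / 2 : ℝ) • (z.1 - z.2) := by
    ext i
    simp only [mid, Pi.sub_apply, Pi.smul_apply, Pi.add_apply, smul_eq_mul]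
    ring
  have e2 : z.2 - mid z = (-(1 / 2) : ℝ) • (z.1 - z.2) := by
    ext i
    simp only [mid, Pi.sub_apply, Pi.smul_apply, Pi.add_apply, smul_eq_mul]
    ring
  have h6 := l_lip hg h h1 h3
  have h7 := l_lip hg h h2 h3
  rw [e1, norm_smul] at h6
  rw [e2, norm_smul] at h7
  have e3 : ‖(1 / 2 : ℝ)‖ = 1 / 2 := by norm_num
  have e4 : ‖(-(1 / 2) : ℝ)‖ = 1 / 2 := by norm_num
  rw [e3] at h6
  rw [e4] at h7
  have hn : (0 : ℝ) ≤ n := Nat.cast_nonneg n
  have h8 : (n : ℝ) * 2 * (1 / 2 * ‖z.1 - z.2‖) ≤ n * 6 := by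
    have : ‖z.1 - z.2‖ ≤ 6 := by linarith
    nlinarith
  have h9 := abs_le.1 (h6.trans h8)
  have h10 := abs_le.1 (h7.trans h8)
  rw [abs_le]
  constructor <;> linarith [h9.1, h9.2, h10.1, h10.2]

/-- `u` is at most `1/4` away from `l(x) + l(y)`. -/
theorem u_l (h : PkOk q d) (z : VV n) : |d.u q z - (d.l z.1 + d.l z.2)| ≤ 1 / 4 := by
  have h1 : d.u q z - (d.l z.1 + d.l z.2) =
      2 * (d.χ (d.r2 z) * d.μc q (d.l (mid z))) := by
    unfold Pk.u H31.EP.uu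
    simp only [Pk.F, Pk.r2]
    ring
  have h2 := (Pk.μc_abs d q (d.l (mid z))).trans (h.ph.μb _)
  have h3 := h.χb (d.r2 z)
  rw [h1, abs_mul, abs_mul, abs_of_nonneg h3.1]
  have h4 : |(2 : ℝ)| = 2 := by norm_num
  rw [h4]
  have := mul_le_mul h3.2 h2 (abs_nonneg _) zero_le_one
  linarith

/-- The constant of `N ≤ C E`. -/
def CN (n : ℕ) (q : Cst) : ℝ :=
  (1 + q.ph.CT) * q.ph.Cb * Real.exp (12 * n + 1) + 4 * q.nm

theorem CN_pos (hg : Gc n q) : 0 < CN n q := by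
  have := hg.nm1
  have := hg.CT
  have := hg.Cb
  unfold CN
  positivity

/-- **`N ≤ C E` where `μ ≠ 0` and `r ≤ 2`.** -/
theorem N_E (hg : Gc n q) (h : PkOk q d) {z : VV n}
    (h1 : z.1 ∈ OO q d) (h2 : z.2 ∈ OO q d) (hr : d.r2 z ≤ 4)
    (hs : q.Cs * q.M₀ ≤ Real.exp (2 * d.l (mid z)))
    (hN : d.u q z ≤ d.uth q ∨ d.N q z ≤ 4 * q.nm * d.E q z) :
    d.N q z ≤ CN n q * d.E q z := by
  have hE : 0 < d.E q z := Real.exp_pos _
  have hnm := hg.nm1
  have hCs := hg.Cs1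
  have hCT := hg.CT
  have hCb := hg.Cb
  have a1 : 0 ≤ (1 + q.ph.CT) * q.ph.Cb * Real.exp (12 * n + 1) * d.E q z := by positivity
  have a2 : 0 ≤ 4 * q.nm * d.E q z := by positivity
  unfold CN
  rw [add_mul]
  rcases hN with h3 | h3
  · have h4 := N_le hg h h3
    have h5 := abs_le.1 (l_two hg h h1 h2 hr)
    have h6 := abs_le.1 (u_l h z)
    have h7 : 2 * d.l (mid z) ≤ (12 * n + 1) + d.u q z := by linarith [h5.1, h6.1]
    have h8 : Real.exp (2 * d.l (mid z)) ≤ Real.exp (12 * n + 1) * d.E q z := by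
      unfold Pk.E
      rw [← Real.exp_add]
      exact Real.exp_le_exp.2 h7
    have h9 : q.M₀ ≤ q.Cs * q.M₀ := by
      have := M_pos hg
      nlinarith
    have h10 : q.M₀ ≤ Real.exp (12 * n + 1) * d.E q z := h9.trans (hs.trans h8)
    have h11 : (1 + q.ph.CT) * (q.ph.Cb * q.M₀) ≤
        (1 + q.ph.CT) * q.ph.Cb * Real.exp (12 * n + 1) * d.E q z := by
      have := mul_le_mul_of_nonneg_left h10
        (by positivity : 0 ≤ (1 + q.ph.CT) * q.ph.Cb)
      calc _ = (1 + q.ph.CT) * q.ph.Cb * q.M₀ := by ring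
        _ ≤ _ := this
        _ = _ := by ring
    have h12 : d.N q z ≤ (1 + q.ph.CT) * (q.ph.Cb * q.M₀) := h4
    linarith
  · linarith

end Vale.Agent.P088.R2.H644.Pf
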