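import Vale.Agent.P088.R2.H644.N.PkN

/-!
# P088, stage 3: all slot quantities of the weight of the package, `r` between `√c` and `20`

`fam_far`: `B0` with `K + N (1/R + tw) + G`, uniform in the family; `b0_near_tot`: `B0` with
`κ ≤ C (G + N / R)` where `u ≤ uth` or `N ≤ 4 nm E`.
-/

open Set Filter
open scoped ContDiff Topology Matrix

noncomputable section

namespace Vale.Agent.P088.R2.H644.Pf

open Vale.Agent.P088.LR Vale.Agent.P088.HY Vale.Agent.P088.R2.H644.Sy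
open Vale.Agent.P088.R2.H464.Cu Vale.Agent.P088.R2.H31.EP Vale.Agent.P088.R2.H644.Ep
open Vale.Agent.P088.R2.H657.W Vale.Agent.P088.R2.H961.GW
open Vale.Agent.P088.R2.H313.Mu (b0 b1 sw)

variable {n k : ℕ} {q q₀ : Cst} {d : Pk n} {c : ℝ}

/-- `G = e^u S(r²)`. -/
def Gn (q : Cst) (d : Pk n) (z : VV n) : ℝ := d.E q z * prS q.e₁ (d.r2 z)

/-- The region `r < 20` below the level `l₀ + (26/10) R`. -/
def Ut (q : Cst) (d : Pk n) : Set (VV n) :=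
  {z | d.l z.1 < d.l₀ q + 26 / 10 * q.R ∧ d.l z.2 < d.l₀ q + 26 / 10 * q.R ∧ d.r2 z < 400}

/-- The region `√c < r < 20`. -/
def Un (c : ℝ) (q : Cst) (d : Pk n) : Set (VV n) := {z | z ∈ Ut q d ∧ c < d.r2 z}

theorem Ut_open (hg : Gc n q) (h : PkOk q d) : IsOpen (Ut q d) := by
  have h1 : Continuous fun z : VV n => d.l z.1 := h.lev.sm.continuous.comp continuous_fst
  have h2 : Continuous fun z : VV n => d.l z.2 := h.lev.sm.continuous.comp continuous_snd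
  exact (isOpen_lt h1 continuous_const).inter ((isOpen_lt h2 continuous_const).inter
    (isOpen_lt (r2_sm hg h).continuous continuous_const))

theorem Un_open (hg : Gc n q) (h : PkOk q d) : IsOpen (Un c q d) :=
  (Ut_open hg h).inter (isOpen_lt continuous_const (r2_sm hg h).continuous)

theorem Ut_x (hg : Gc n q) {z : VV n} (hz : z ∈ Ut q d) : z.1 ∈ OO q d := by
  have := hz.1
  have := hg.R1
  show d.l z.1 < d.l₀ q + 3 * q.R
  linarith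

theorem Ut_y (hg : Gc n q) {z : VV n} (hz : z ∈ Ut q d) : z.2 ∈ OO q d := by
  have := hz.2.1
  have := hg.R1
  show d.l z.2 < d.l₀ q + 3 * q.R
  linarith

theorem Ut_r (hg : Gc n q) {z : VV n} (hz : z ∈ Ut q d) : √(d.r2 z) ≤ 20 * q.R := by
  have h1 : √(d.r2 z) ≤ 20 := by
    rw [Real.sqrt_le_left (by norm_num)]
    have := hz.2.2
    linarith
  have := hg.R1
  linarith

/-- **The weight for `r < 20`.** -/
theorem W_ww (hg : Gc n q) (h : PkOk q d) {z : VV n} (hz : z ∈ Ut q d) :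
    d.W q z = WW (d.F q) d.l (gi d.s₁) z := by
  have hR := hg.R1
  have h1 : d.P z.1 = z.1 := h.ret.id _ (by linarith [hz.1])
  have h2 : d.P z.2 = z.2 := h.ret.id _ (by linarith [hz.2.1])
  have h3 : d.Θ (d.l z.1) = 0 := h.Θ0 _ hz.1.le
  have h4 : d.Θ (d.l z.2) = 0 := h.Θ0 _ hz.2.1.le
  unfold Pk.W WT
  rw [h1, h2, h3, h4]
  simp

theorem W_near (hg : Gc n q) (h : PkOk q d) {z : VV n} (hz : z ∈ Ut q d) :
    d.W q z = d.Φ (d.u q z) + Gn q d z := by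
  rw [W_ww hg h hz]
  exact WW_near h.ok rfl (lt_of_lt_of_le hz.2.2 hg.r1)

/-- The slots. -/
theorem ok_x (h : PkOk q d) {U : Set (VV n)} (hU : IsOpen U) :
    d.sx.Ok U (tht (fun _ : V n => (1 : ℝ)) fun _ : V n => (1 : ℝ)) := by
  have f : ∀ s : MF n, SmM s → (∀ x, (s x).IsSymm) → Fr0 (fun _ : V n => (1 : ℝ)) s univ :=
    fun s h1 h2 => ⟨isOpen_univ, fun _ _ => one_pos, contDiffOn_const,
      fun i j => (h1 i j).contDiffOn, fun x i j => (h2 x).apply j i⟩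
  exact okx (f d.s₁ h.rg.sm₁ h.rg.sy₁) (f d.s₂ h.rg.sm₂ h.rg.sy₂) hU
    fun z _ => ⟨mem_univ _, mem_univ _⟩

theorem ok_y (h : PkOk q d) {U : Set (VV n)} (hU : IsOpen U) :
    d.sy.Ok U (tht (fun _ : V n => (1 : ℝ)) fun _ : V n => (1 : ℝ)) := by
  have f : ∀ s : MF n, SmM s → (∀ x, (s x).IsSymm) → Fr0 (fun _ : V n => (1 : ℝ)) s univ :=
    fun s h1 h2 => ⟨isOpen_univ, fun _ _ => one_pos, contDiffOn_const,
      fun i j => (h1 i j).contDiffOn, fun x i j => (h2 x).apply j i⟩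
  exact oky (f d.s₁ h.rg.sm₁ h.rg.sy₁) (f d.s₂ h.rg.sm₂ h.rg.sy₂) hU
    fun z _ => ⟨mem_univ _, mem_univ _⟩

theorem δR1 (hg : Gc n q) : (q.R)⁻¹ ≤ 1 := inv_le_one_of_one_le₀ hg.R1

/-! ## The families -/

/-- **All slot quantities, with the correction.** -/
theorem fam_far (hn : 1 ≤ n) (hc : 0 < c) (q₀ : Cst) (he : 0 < q₀.e₁) :
    ∀ᶠ C : ℝ in atTop, ∀ a : Fa n q₀, ∀ z ∈ Un c a.q a.d,
      B0 a.d.sx a.d.sy (a.d.W a.q) z C (a.d.N a.q z + Gn a.q a.d z)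
        (a.d.Kf a.q z + a.d.N a.q z * ((a.q.R)⁻¹ + tw (fun a : Fa n q₀ => b0 1 a.q.M₀)
          (fun a => b1 1 a.q.M₀) (fun a => gi a.d.s₁) a z) + Gn a.q a.d z) (a.q.R)⁻¹ := by
  have hU : ∀ a : Fa n q₀, IsOpen (Un c a.q a.d) := fun a => Un_open a.g a.ok
  have lg : Lg (fun a : Fa n q₀ => OO a.q a.d) (fun a => Un c a.q a.d) (fun a => a.q.R)
      (fun a => a.d.l) (fun a => gi a.d.s₁) 20 3 :=
    lgI hn (by norm_num) hU (fun a z hz => Ut_x a.g hz.1) (fun a z hz => Ut_y a.g hz.1)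
      fun a z hz => Ut_r a.g hz.1
  have hG : ∀ a : Fa n q₀, ∀ z, Gu (prS q₀.e₁) (fun a : Fa n q₀ => a.d.F a.q) (fun a => a.d.l)
      (fun a => gi a.d.s₁) a z = Gn a.q a.d z := fun a z => by
    unfold Gn
    rw [a.e₁]
    rfl
  have key := b0_far (δ := fun a : Fa n q₀ => (a.q.R)⁻¹) (lsI he hc) (pcI n q₀) (mcI n q₀) lg
    (fun a z hz => hz.2) (fun a => inv_nonneg.2 (by linarith [a.g.R1])) (fun a => δR1 a.g)
    ⟨1, zero_le_one, fun a => by rw [one_mul]⟩ (tn1 (n := n) (k := 2) q₀ (by norm_num))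
    (tn2 (n := n) (k := 2) q₀ (by norm_num)) (fun a z hz => by
      rw [hG, ← W_ww a.g a.ok hz.1]
      exact W_near a.g a.ok hz.1)
  filter_upwards [key] with C hC a z hz
  have h1 := hC a z hz
  rw [kp, hG] at h1
  exact h1.congr (hU a) (fun z hz => W_ww a.g a.ok hz.1) hz

/-- The region where the correction vanishes. -/
def Uz (c : ℝ) (q : Cst) (d : Pk n) : Set (VV n) :=
  {z | z ∈ Un c q d ∧ d.l (mid z) < sw q.Cs q.M₀}

theorem Uz_open (hg : Gc n q) (h : PkOk q d) : IsOpen (Uz c q d) :=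
  (Un_open hg h).inter (isOpen_lt (h.lev.sm.continuous.comp contDiff_mid.continuous)
    continuous_const)

theorem μc_0 (h : PkOk q d) {s : ℝ} (hs : s ≤ sw q.Cs q.M₀) : d.μc q s = 0 := by
  unfold Pk.μc
  rw [h.ph.isμ.ze s hs, zero_mul]

theorem uu_Fz (h : PkOk q d) {z : VV n} (hz : z ∈ Uz c q d) :
    H31.EP.uu (Fz (d.F q)) d.l (gi d.s₁) z = d.u q z := by
  have h1 : d.μc q (d.l (mid z)) = 0 := μc_0 h hz.2.le
  unfold Pk.u H31.EP.uu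
  have e1 : (d.F q).μ (d.l (mid z)) = 0 := h1
  have e2 : (Fz (d.F q)).μ (d.l (mid z)) = 0 := rfl
  rw [e1, e2]
  simp

theorem WW_Fz (h : PkOk q d) {z : VV n} (hz : z ∈ Uz c q d) :
    WW (Fz (d.F q)) d.l (gi d.s₁) z = WW (d.F q) d.l (gi d.s₁) z := by
  have h1 := uu_Fz h hz
  have h2 : H31.EP.uu (d.F q) d.l (gi d.s₁) z = d.u q z := rfl
  unfold WW
  rw [h1, h2]
  rfl

/-- **All slot quantities where the correction vanishes.** -/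
theorem fam_farZ (hn : 1 ≤ n) (hc : 0 < c) (q₀ : Cst) (he : 0 < q₀.e₁) :
    ∀ᶠ C : ℝ in atTop, ∀ a : Fa n q₀, ∀ z ∈ Uz c a.q a.d,
      B0 a.d.sx a.d.sy (a.d.W a.q) z C (a.d.N a.q z + Gn a.q a.d z)
        (a.d.Kf a.q z + a.d.N a.q z * (a.q.R)⁻¹ + Gn a.q a.d z) (a.q.R)⁻¹ := by
  have hU : ∀ a : Fa n q₀, IsOpen (Uz c a.q a.d) := fun a => Uz_open a.g a.ok
  have lg : Lg (fun a : Fa n q₀ => OO a.q a.d) (fun a => Uz c a.q a.d) (fun a => a.q.R)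
      (fun a => a.d.l) (fun a => gi a.d.s₁) 20 3 :=
    lgI hn (by norm_num) hU (fun a z hz => Ut_x a.g hz.1.1) (fun a z hz => Ut_y a.g hz.1.1)
      fun a z hz => Ut_r a.g hz.1.1
  have hG : ∀ a : Fa n q₀, ∀ z ∈ Uz c a.q a.d, Gu (prS q₀.e₁)
      (fun a : Fa n q₀ => Fz (a.d.F a.q)) (fun a => a.d.l)
      (fun a => gi a.d.s₁) a z = Gn a.q a.d z := fun a z hz => by
    unfold Gn Gu
    rw [a.e₁, uu_Fz a.ok hz]
    rfl
  have key := b0_far (δ := fun a : Fa n q₀ => (a.q.R)⁻¹) (lsI he hc) (pcZ n q₀) (mcZ n q₀) lg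
    (fun a z hz => hz.1.2) (fun a => inv_nonneg.2 (by linarith [a.g.R1])) (fun a => δR1 a.g)
    ⟨1, zero_le_one, fun a => by rw [one_mul]⟩ (tn1 (n := n) (k := 2) q₀ (by norm_num))
    (tn2 (n := n) (k := 2) q₀ (by norm_num)) (fun a z hz => by
      rw [hG a z hz, WW_Fz a.ok hz, ← W_ww a.g a.ok hz.1.1, uu_Fz a.ok hz]
      exact W_near a.g a.ok hz.1.1)
  filter_upwards [key] with C hC a z hz
  have h1 := hC a z hz
  have e1 : Nu (fun a : Fa n q₀ => Fz (a.d.F a.q)) (fun a => a.d.l) (fun a => gi a.d.s₁) a z =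
      a.d.N a.q z := by
    unfold Nu
    rw [uu_Fz a.ok hz]
    rfl
  have e2 : Ku (fun a : Fa n q₀ => Fz (a.d.F a.q)) (fun a => a.d.l) (fun a => gi a.d.s₁) a z =
      a.d.Kf a.q z := by
    unfold Ku
    rw [uu_Fz a.ok hz]
    rfl
  have e3 : ww (fun a : Fa n q₀ => a.q.R) (fun _ => 0) (fun _ => 0) (fun a => gi a.d.s₁) a z =
      (a.q.R)⁻¹ := by
    unfold ww tw
    simp
  rw [kp, hG a z hz, e1, e2, e3] at h1
  refine h1.congr (hU a) (fun z hz => ?_) hz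
  rw [WW_Fz a.ok hz]
  exact W_ww a.g a.ok hz.1.1

/-! ## The size of the second derivatives -/

/-- The condition of the zones where `N ≤ 4 nm E` or `u ≤ uth`. -/
def Lo (q : Cst) (d : Pk n) (z : VV n) : Prop :=
  d.u q z ≤ d.uta q ∧ (d.u q z ≤ d.uth q ∨ d.N q z ≤ 4 * q.nm * d.E q z)

theorem E_G (hg : Gc n q) (hc : 0 < c) {z : VV n} (hz : c < d.r2 z) :
    d.E q z ≤ (prS q.e₁ c)⁻¹ * Gn q d z := by
  have h1 := prS_pos hg.e0 hc
  have h2 := prS_mono hg.e0 (show c ∈ Ici 0 from hc.le) (show d.r2 z ∈ Ici 0 from (hc.trans hz).le)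
    hz.le
  have hE : 0 < d.E q z := Real.exp_pos _
  unfold Gn
  rw [inv_mul_eq_div, le_div_iff₀ h1]
  exact mul_le_mul_of_nonneg_left h2 hE.le

theorem sw_iff (hg : Gc n q) {s : ℝ} (h : sw q.Cs q.M₀ ≤ s) :
    q.Cs * q.M₀ ≤ Real.exp (2 * s) := by
  have h1 : 0 < q.Cs * q.M₀ := mul_pos (by linarith [hg.Cs1]) (M_pos hg)
  rw [← Real.log_le_iff_le_exp h1]
  unfold sw at h
  linarith

/-- **`K ≤ C G`.** -/
theorem K_G (hg : Gc n q) (h : PkOk q d) (hc : 0 < c) {z : VV n} (hz : c < d.r2 z)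
    (hL : Lo q d z) : d.Kf q z ≤ CK q * (prS q.e₁ c)⁻¹ * Gn q d z := by
  refine (K_le hg h hL.1 hL.2).trans ?_
  rw [mul_assoc]
  exact mul_le_mul_of_nonneg_left (E_G hg hc hz) (CK_pos hg).le

/-- **`N ≤ C G` where `μ ≠ 0`, `r ≤ 2`.** -/
theorem N_G (hg : Gc n q) (h : PkOk q d) (hc : 0 < c) {z : VV n} (hz : c < d.r2 z)
    (h1 : z.1 ∈ OO q d) (h2 : z.2 ∈ OO q d) (hr : d.r2 z ≤ 4)
    (hs : q.Cs * q.M₀ ≤ Real.exp (2 * d.l (mid z))) (hL : Lo q d z) :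
    d.N q z ≤ CN n q * (prS q.e₁ c)⁻¹ * Gn q d z := by
  refine (N_E hg h h1 h2 hr hs hL.2).trans ?_
  rw [mul_assoc]
  exact mul_le_mul_of_nonneg_left (E_G hg hc hz) (CN_pos hg).le

theorem N_nn (hg : Gc n q) (h : PkOk q d) (z : VV n) : 0 ≤ d.N q z :=
  (M_pos hg).le.trans (N_ge h _)

theorem Gn_nn (hg : Gc n q) (h : PkOk q d) (z : VV n) : 0 ≤ Gn q d z :=
  mul_nonneg (Real.exp_pos _).le (prS_nn hg.e0 (r2_nn hg h z))

theorem Fa.CK (a : Fa n q₀) : CK a.q = CK q₀ := by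
  have h := congrArg Pf.CK a.eq
  exact h

theorem Fa.CN (a : Fa n q₀) : CN n a.q = CN n q₀ := by
  have h := congrArg (Pf.CN n) a.eq
  exact h

/-- Functions of the constants before `M₀`. -/
theorem Fa.nb {cf : Cst → ℝ} (hcf : NB_M₀ cf) (a : Fa n q₀) : cf a.q = cf q₀ :=
  (hcf a.q).symm.trans (congrArg cf a.eq)

/-- The weight of the correction. -/
def tA (a : Fa n q₀) (z : VV n) : ℝ := tw (fun a : Fa n q₀ => b0 1 a.q.M₀)
  (fun a => b1 1 a.q.M₀) (fun a => gi a.d.s₁) a z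

theorem tA_2 (a : Fa n q₀) (z : VV n) : tA a z ≤ 2 := by
  unfold tA
  exact (mcI n q₀).tw2 a z

theorem tA_far (a : Fa n q₀) {z : VV n} (h : 4 < a.d.r2 z) : tA a z = 0 := by
  unfold tA
  exact tw_far h

theorem N_tA (hc : 0 < c) (a : Fa n q₀) {z : VV n} (hz : z ∈ Un c a.q a.d) (hL : Lo a.q a.d z)
    (hm : sw a.q.Cs a.q.M₀ ≤ a.d.l (mid z)) :
    a.d.N a.q z * tA a z ≤ 2 * (Pf.CN n q₀ * (prS q₀.e₁ c)⁻¹) * Gn a.q a.d z := by
  have hG := Gn_nn a.g a.ok z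
  have hN := N_nn a.g a.ok z
  have he : 0 < q₀.e₁ := by rw [← a.e₁]; exact a.g.e0
  have hS : 0 < (prS q₀.e₁ c)⁻¹ := inv_pos.2 (prS_pos he hc)
  have hCN : 0 < Pf.CN n q₀ := by rw [← a.CN]; exact CN_pos a.g
  rcases le_or_gt (a.d.r2 z) 4 with hr | hr
  · have e5 := N_G a.g a.ok hc hz.2 (Ut_x a.g hz.1) (Ut_y a.g hz.1) hr (sw_iff a.g hm) hL
    rw [a.CN, a.e₁] at e5
    calc a.d.N a.q z * tA a z ≤ a.d.N a.q z * 2 := mul_le_mul_of_nonneg_left (tA_2 a z) hN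
      _ ≤ Pf.CN n q₀ * (prS q₀.e₁ c)⁻¹ * Gn a.q a.d z * 2 :=
          mul_le_mul_of_nonneg_right e5 zero_le_two
      _ = _ := by ring
  · rw [tA_far a hr, mul_zero]
    positivity

theorem num_fin {κ C S G N : ℝ} (hS : S ≤ C) (h1 : 1 ≤ C) (hG : 0 ≤ G) (hN : 0 ≤ N)
    (h : κ ≤ S * G + N) : κ ≤ C * (G + N) := by
  have e1 := mul_le_mul_of_nonneg_right hS hG
  have e2 := mul_le_mul_of_nonneg_right h1 hN
  rw [mul_add]
  linarith

theorem b0_fam (hn : 1 ≤ n) {cf : Cst → ℝ} (hcf : NB_M₀ cf) (q₀ : Cst) (he : 0 < q₀.e₁)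
    (hc : 0 < cf q₀) : ∃ C : ℝ, 1 ≤ C ∧ ∀ a : Fa n q₀, ∀ z ∈ Un (cf a.q) a.q a.d,
      Lo a.q a.d z → ∃ κ, κ ≤ C * (Gn a.q a.d z + a.d.N a.q z / a.q.R) ∧
        B0 a.d.sx a.d.sy (a.d.W a.q) z C (a.d.N a.q z + Gn a.q a.d z) κ (a.q.R)⁻¹ := by
  obtain ⟨C, h1, h2, h3, h4⟩ := ((fam_far hn hc q₀ he).and ((fam_farZ hn hc q₀ he).and
    ((eventually_ge_atTop (Pf.CK q₀ * (prS q₀.e₁ (cf q₀))⁻¹ +
      2 * (Pf.CN n q₀ * (prS q₀.e₁ (cf q₀))⁻¹) + 1)).and (eventually_ge_atTop 1)))).exists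
  refine ⟨C, h4, fun a z hz hL => ?_⟩
  rw [a.nb hcf] at hz
  have hG := Gn_nn a.g a.ok z
  have hN := N_nn a.g a.ok z
  have hR : 0 < a.q.R := by linarith [a.g.R1]
  have hK : a.d.Kf a.q z ≤ Pf.CK q₀ * (prS q₀.e₁ (cf q₀))⁻¹ * Gn a.q a.d z := by
    have := K_G a.g a.ok hc hz.2 hL
    rwa [a.CK, a.e₁] at this
  have hS : 0 < (prS q₀.e₁ (cf q₀))⁻¹ := inv_pos.2 (prS_pos he hc)
  have hCN : 0 < Pf.CN n q₀ := by rw [← a.CN]; exact CN_pos a.g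
  have hNR : 0 ≤ a.d.N a.q z / a.q.R := by positivity
  have p2 := mul_nonneg (mul_nonneg zero_le_two (mul_pos hCN hS).le) hG
  rcases lt_or_ge (a.d.l (mid z)) (sw a.q.Cs a.q.M₀) with hm | hm
  · refine ⟨_, num_fin h3 h4 hG hNR ?_, h2 a z ⟨hz, hm⟩⟩
    rw [add_mul, add_mul, ← div_eq_mul_inv]
    linarith
  · refine ⟨_, num_fin h3 h4 hG hNR ?_, h1 a z hz⟩
    have e4 := N_tA hc a hz hL hm
    unfold tA at e4
    rw [add_mul, add_mul, mul_add, ← div_eq_mul_inv]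
    linarith

/-- **All slot quantities with `κ ≤ C (G + N / R)`.** -/
theorem b0_tot (hn : 1 ≤ n) (cf : Cst → ℝ) (hcf : NB_M₀ cf) : ∃ C : Cst → ℝ, NB_M₀ C ∧
    (∀ q, 1 ≤ C q) ∧ ∀ q, Gc n q → 0 < cf q → ∀ d : Pk n, PkOk q d → ∀ z ∈ Un (cf q) q d,
      Lo q d z → ∃ κ, κ ≤ C q * (Gn q d z + d.N q z / q.R) ∧
        B0 d.sx d.sy (d.W q) z (C q) (d.N q z + Gn q d z) κ (q.R)⁻¹ := by
  have key : ∀ q₀ : Cst, ∃ C : ℝ, 1 ≤ C ∧ ∀ a : Fa n q₀, 0 < cf a.q → ∀ z ∈ Un (cf a.q) a.q a.d,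
      Lo a.q a.d z → ∃ κ, κ ≤ C * (Gn a.q a.d z + a.d.N a.q z / a.q.R) ∧
        B0 a.d.sx a.d.sy (a.d.W a.q) z C (a.d.N a.q z + Gn a.q a.d z) κ (a.q.R)⁻¹ := by
    intro q₀
    by_cases hq : 0 < q₀.e₁ ∧ 0 < cf q₀
    · obtain ⟨C, h1, h2⟩ := b0_fam hn hcf q₀ hq.1 hq.2
      exact ⟨C, h1, fun a _ => h2 a⟩
    · refine ⟨1, le_rfl, fun a h1 => absurd ⟨?_, ?_⟩ hq⟩
      · rw [← a.e₁]; exact a.g.e0
      · rwa [← a.nb hcf]
  choose C hC0 hC using key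
  refine ⟨fun q => C q.b_M₀, fun q => rfl, fun q => hC0 _, fun q hg hc d hd z hz hL => ?_⟩
  exact hC q.b_M₀ ⟨q, d, rfl, hg, hd⟩ hc z hz hL

end Vale.Agent.P088.R2.H644.Pf
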