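import Vale.Agent.P088.R2.H644.N.PkS
import Vale.Agent.P088.R2.H644.N.Cert
import Vale.Agent.P088.R2.H747.A.Rows

/-!
# P088, zone A: the rows `RowMu` and `RowTotN`
-/

open Set Filter
open scoped ContDiff Topology Matrix

noncomputable section

namespace Vale.Agent.P088.R2.H644.Pf

open Vale.Agent.P088.LR Vale.Agent.P088.HY Vale.Agent.P088.R2.H644.Sy
open Vale.Agent.P088.R2.H464.Cu Vale.Agent.P088.R2.H31.EP Vale.Agent.P088.R2.H644.Ep
open Vale.Agent.P088.R2.H961.GW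
open Vale.Agent.P088.R2.H644.Nr (Kn tot_of_B0)
open Vale.Agent.P088.R2.H747.SW (ss)
open Vale.Agent.P088.R2.H960.W (tc)

variable {n k : ℕ} {q q₀ : Cst} {d : Pk n} {c : ℝ}

/-! ## `G` -/

/-- `G = e^u S(r²)` for `r < 20`. -/
theorem GG_eq (hg : Gc n q) (h : PkOk q d) {z : VV n} (h0 : 0 < d.r2 z) (h1 : d.r2 z < 400) :
    H747.A.GG q d z = Gn q d z := by
  have hr : 0 < √(d.r2 z) := Real.sqrt_pos.2 h0
  have hr2 : 0 < q.r₁ * Real.exp (-1) := h.ok.rc0.trans h.ok.rcd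
  have h2 : √(d.r2 z) < q.r₁ * Real.exp (-1) := by
    rw [Real.sqrt_lt' hr2]
    exact lt_of_lt_of_le h1 hg.r1
  have h3 := h.sl.inn 1 0 (H747.A.ff q d z, H747.A.rr d z) hr h2
  rw [if_pos rfl] at h3
  have h4 : H747.A.GG q d z = Real.exp (H747.A.ff q d z) := h3
  rw [h4]
  unfold H747.A.ff H747.A.lS H747.A.rr Gn Pk.E
  rw [Real.sq_sqrt h0.le, Real.exp_add, Real.exp_log (prS_pos hg.e0 h0)]

/-! ## `RowMu` -/

theorem OmB_Un (hg : Gc n q) {z : VV n} (hz : z ∈ H747.A.OmB q d) (h : d.r2 z < 400) :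
    z ∈ Un ((q.c₀ / 2) ^ 2) q d := by
  obtain ⟨h1, -, h3, h4, -, -, -⟩ := hz
  have hR := hg.R1
  exact ⟨⟨by linarith, by linarith, h⟩, h1⟩

theorem OmB_Lo {z : VV n} (hz : z ∈ H747.A.OmB q d) : Lo q d z := by
  obtain ⟨-, -, -, -, -, h6, h7⟩ := hz
  exact ⟨h6.le, h7.imp le_of_lt le_of_lt⟩

/-- **Row A-MU.** -/
theorem rowMu (n : ℕ) : H747.A.RowMu n := by
  refine ⟨fun q => |CN n q * (prS q.e₁ ((q.c₀ / 2) ^ 2))⁻¹| + 1, fun q => rfl,
    fun q => by positivity, (Gc.ev n).mono fun q hg d h z hz hr hs => ?_⟩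
  have h400 : d.r2 z < 400 := by linarith
  have hU := OmB_Un hg hz h400
  have hc : 0 < (q.c₀ / 2) ^ 2 := by
    have := hg.c0
    positivity
  have h0 : 0 < d.r2 z := hc.trans hU.2
  rw [GG_eq hg h h0 h400]
  have h1 := N_G hg h hc hU.2 (Ut_x hg hU.1) (Ut_y hg hU.1) hr.le hs.le (OmB_Lo hz)
  refine h1.trans (mul_le_mul_of_nonneg_right ?_ (Gn_nn hg h z))
  linarith [le_abs_self (CN n q * (prS q.e₁ ((q.c₀ / 2) ^ 2))⁻¹)]

/-! ## The forms of the slots -/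

theorem form_bd {S : Fin n → Fin n → ℝ} {ε : ℝ} (hε : n * ε ≤ 1 / 2)
    (h : ∀ i j, |S i j - (1 : Matrix (Fin n) (Fin n) ℝ) i j| ≤ ε) (v : Fin n → ℝ) :
    1 / 2 * ∑ i, v i ^ 2 ≤ ∑ i, ∑ j, S i j * v i * v j ∧
      ∑ i, ∑ j, S i j * v i * v j ≤ 2 * ∑ i, v i ^ 2 := by
  have e1 : ∑ i, ∑ j, S i j * v i * v j = ∑ i, v i ^ 2 +
      ∑ i, ∑ j, (S i j - (1 : Matrix (Fin n) (Fin n) ℝ) i j) * v i * v j := by
    have e2 : ∀ i, ∑ j, S i j * v i * v j = v i ^ 2 +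
        ∑ j, (S i j - (1 : Matrix (Fin n) (Fin n) ℝ) i j) * v i * v j := fun i => by
      have e3 : v i ^ 2 = ∑ j, (1 : Matrix (Fin n) (Fin n) ℝ) i j * v i * v j := by
        simp only [Matrix.one_apply, ite_mul, one_mul, zero_mul, Finset.sum_ite_eq,
          Finset.mem_univ, if_true]
        ring
      rw [e3, ← Finset.sum_add_distrib]
      exact Finset.sum_congr rfl fun j _ => by ring
    rw [← Finset.sum_add_distrib]
    exact Finset.sum_congr rfl fun i _ => e2 i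
  have e4 : |∑ i, ∑ j, (S i j - (1 : Matrix (Fin n) (Fin n) ℝ) i j) * v i * v j| ≤
      n * ε * ∑ i, v i ^ 2 := by
    have e5 : ∀ i j, |(S i j - (1 : Matrix (Fin n) (Fin n) ℝ) i j) * v i * v j| ≤
        ε * (1 / 2 * v i ^ 2 + 1 / 2 * v j ^ 2) := fun i j => by
      rw [abs_mul, abs_mul, mul_assoc]
      have h3 : |v i| * |v j| ≤ 1 / 2 * v i ^ 2 + 1 / 2 * v j ^ 2 := by
        nlinarith [sq_nonneg (|v i| - |v j|), sq_abs (v i), sq_abs (v j)]
      exact mul_le_mul (h i j) h3 (by positivity) ((abs_nonneg _).trans (h i j))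
    refine (Finset.abs_sum_le_sum_abs _ _).trans ((Finset.sum_le_sum fun i _ =>
      (Finset.abs_sum_le_sum_abs _ _).trans (Finset.sum_le_sum fun j _ => e5 i j)).trans
        (le_of_eq ?_))
    simp only [← Finset.mul_sum, Finset.sum_add_distrib, Finset.sum_const, Finset.card_univ,
      Fintype.card_fin, nsmul_eq_mul]
    ring
  have h0 : 0 ≤ ∑ i, v i ^ 2 := Finset.sum_nonneg fun i _ => sq_nonneg _
  have h1 := mul_le_mul_of_nonneg_right hε h0
  have h2 := abs_le.1 (e4.trans h1)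
  rw [e1]
  constructor <;> linarith [h2.1, h2.2]

theorem sx_form (hg : Gc n q) (h : PkOk q d) (A : Fin n → ℝ) (z : VV n) :
    1 / 2 * ∑ i, A i ^ 2 ≤ ∑ i, ∑ j, d.sx.s i j z * A i * A j ∧
      ∑ i, ∑ j, d.sx.s i j z * A i * A j ≤ 2 * ∑ i, A i ^ 2 :=
  form_bd hg.nε (fun i j => by
    have h1 := h.rg.cl₁ i j 0 (Nat.zero_le _) z.1
    have h2 : |d.s₁ z.1 i j - (1 : Matrix (Fin n) (Fin n) ℝ) i j| ≤ q.ε := by simpa using h1
    exact h2) A

theorem sy_form (hg : Gc n q) (h : PkOk q d) (A : Fin n → ℝ) (z : VV n) :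
    1 / 2 * ∑ i, A i ^ 2 ≤ ∑ i, ∑ j, d.sy.s i j z * A i * A j ∧
      ∑ i, ∑ j, d.sy.s i j z * A i * A j ≤ 2 * ∑ i, A i ^ 2 :=
  form_bd hg.nε (fun i j => by
    have h1 := h.rg.cl₂ i j 0 (Nat.zero_le _) z.2
    have h2 : |d.s₂ z.2 i j - (1 : Matrix (Fin n) (Fin n) ℝ) i j| ≤ q.ε := by simpa using h1
    exact h2) A

/-! ## The smoothness of the weight -/

theorem u_sm (hg : Gc n q) (h : PkOk q d) : ContDiff ℝ ∞ (d.u q) := by
  have h1 : ContDiff ℝ ∞ fun z : VV n => d.l z.1 := h.lev.sm.comp contDiff_fst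
  have h2 : ContDiff ℝ ∞ fun z : VV n => d.l z.2 := h.lev.sm.comp contDiff_snd
  have h3 : ContDiff ℝ ∞ fun z : VV n => d.l (mid z) := h.lev.sm.comp contDiff_mid
  exact (h1.add h2).add (contDiff_const.mul ((h.χs.comp (r2_sm hg h)).mul
    ((Pk.μc_smooth d q h.ph.isμ.sm).comp h3)))

theorem W_smU (hg : Gc n q) (h : PkOk q d) : Sm (Un c q d) (d.W q) := by
  have h1 : ContDiff ℝ ∞ fun z => d.Φ (d.u q z) + Gn q d z :=
    (h.top.sm.comp (u_sm hg h)).add ((u_sm hg h).exp.mul ((prS_sm hg.e0).comp (r2_sm hg h)))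
  exact h1.contDiffOn.congr fun z hz => W_near hg h hz.1

/-! ## `RowTotN` -/

theorem NB_c'.toM {α : Type*} {f : Cst → α} (h : NB_c' f) : NB_M₀ f :=
  fun q => (h q.b_M₀).symm.trans (h q)

/-- **Row A-TOT-N.** -/
theorem rowTotN {n : ℕ} (hn : 1 ≤ n) : H747.A.RowTotN n := by
  intro μ₀ ηA C hμ hη hC μ0 η0 C0
  obtain ⟨C₁, hC₁, C1, hB⟩ := b0_tot hn (fun q => (q.c₀ / 2) ^ 2) fun q => rfl
  have ev : EvC fun q => 0 < q.rT → 0 < q.σ → Kn n (C₁ q) (C₁ q) ≤
      ηA q / 52 * ((min (μ₀ q / 17) (q.σ / 400)) ^ 2 * (q.rT ^ 2 / 128)) * q.M₀ := by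
    have h1 := EvC.at_M₀ (fun q t => 0 < q.rT → 0 < q.σ → Kn n (C₁ q) (C₁ q) ≤
      ηA q / 52 * ((min (μ₀ q / 17) (q.σ / 400)) ^ 2 * (q.rT ^ 2 / 128)) * t) fun q => by
        by_cases hq : 0 < q.rT ∧ 0 < q.σ
        · obtain ⟨h1, h2⟩ := hq
          have h3 : 0 < min (μ₀ q / 17) (q.σ / 400) :=
            lt_min (by have := μ0 q; positivity) (by positivity)
          have h4 : 0 < ηA q / 52 * ((min (μ₀ q / 17) (q.σ / 400)) ^ 2 * (q.rT ^ 2 / 128)) := by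
            have := η0 q
            positivity
          refine ev_top (Kn n (C₁ q) (C₁ q) /
            (ηA q / 52 * ((min (μ₀ q / 17) (q.σ / 400)) ^ 2 * (q.rT ^ 2 / 128)))) fun t ht _ _ => ?_
          rw [div_le_iff₀ h4] at ht
          linarith
        · exact Eventually.of_forall fun _ a b => absurd ⟨a, b⟩ hq
    refine h1.mono fun q hq a b => ?_
    have h2 := hq a b
    rw [hC₁ q, NB_c'.toM hη q, NB_c'.toM hμ q] at h2
    exact h2
  refine ((Gc.ev n).and ev).mono fun q hq d h z hz hr c c' hcr _ => ?_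
  obtain ⟨hg, hK⟩ := hq
  have hK := hK hg.rT hg.σ0
  obtain ⟨hzB, hx, hy⟩ := hz
  have hR1 := hg.R1
  have hr0 : 0 < d.r2 z := by
    have h1 := hzB.1
    have h2 := hg.c0
    have : 0 < (q.c₀ / 2) ^ 2 := by positivity
    linarith
  have h400 : d.r2 z < 400 := by
    have h1 : √(d.r2 z) ≤ 17 := hr
    rw [Real.sqrt_le_left (by norm_num)] at h1
    linarith
  have hU := OmB_Un hg hzB h400
  have hc0 : 0 < (q.c₀ / 2) ^ 2 := by
    have := hg.c0
    positivity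
  obtain ⟨κ, hκ, b⟩ := hB q hg hc0 d h z hU (OmB_Lo hzB)
  have hGG := GG_eq hg h hr0 h400
  have hG := Gn_nn hg h z
  have hNM := N_ge h (d.u q z)
  have hN1 : 1 ≤ d.N q z := by
    have h1 := hg.M1
    have h2 := Real.add_one_le_exp (1 : ℝ)
    have h3 : q.M₀ ≤ d.N q z := hNM
    linarith
  have hrr : 0 < H747.A.rr d z := Real.sqrt_pos.2 hr0
  have hr17 : H747.A.rr d z ≤ 17 := hr
  set m₀ := min (μ₀ q / 17) (q.σ / 400) with hm₀
  have hm0 : 0 < m₀ := lt_min (by have := μ0 q; positivity) (by have := hg.σ0; positivity)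
  have hm1 : m₀ ≤ 1 := (min_le_right _ _).trans (by linarith [hg.σ1])
  have hNG : H747.A.NG q d z = d.N q z + Gn q d z := by
    unfold H747.A.NG
    rw [hGG]
  have hmm : m₀ * (Gn q d z + d.N q z / q.R) ≤ H747.A.mA μ₀ q d z := by
    unfold H747.A.mA
    rw [hNG, hGG, mul_add]
    have h1 : m₀ * Gn q d z ≤ μ₀ q * (Gn q d z / H747.A.rr d z) := by
      have h2 : m₀ * Gn q d z ≤ μ₀ q / 17 * Gn q d z :=
        mul_le_mul_of_nonneg_right (min_le_left _ _) hG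
      have h3 : Gn q d z / 17 ≤ Gn q d z / H747.A.rr d z := div_le_div_of_nonneg_left hG hrr hr17
      have h4 := mul_le_mul_of_nonneg_left h3 (μ0 q).le
      have e : μ₀ q / 17 * Gn q d z = μ₀ q * (Gn q d z / 17) := by ring
      linarith
    have h5 : m₀ * (d.N q z / q.R) ≤ q.σ / (400 * q.R) * (d.N q z + Gn q d z) := by
      have h6 : m₀ * (d.N q z / q.R) ≤ q.σ / 400 * (d.N q z / q.R) :=
        mul_le_mul_of_nonneg_right (min_le_right _ _) (by positivity)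
      have h7 : q.σ / 400 * (d.N q z / q.R) = q.σ / (400 * q.R) * d.N q z := by
        field_simp
      have h8 : 0 ≤ q.σ / (400 * q.R) * Gn q d z := by
        have := hg.σ0
        positivity
      rw [mul_add]
      linarith
    linarith
  have hFx : q.rT ^ 2 / 128 * (d.N q z + Gn q d z) ^ 2 ≤ d.sx.F (d.W q) z := by
    have h1 := (sx_form hg h (fun i => d.sx.D i (d.W q) z) z).1
    have h2 : (q.rT / 8 * (d.N q z + Gn q d z)) ^ 2 < ∑ i, d.sx.D i (d.W q) z ^ 2 := by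
      rw [← hNG]; exact hx
    have h3 : d.sx.F (d.W q) z = ∑ i, ∑ j, d.sx.s i j z * d.sx.D i (d.W q) z *
        d.sx.D j (d.W q) z := rfl
    rw [h3]
    nlinarith
  have hFy : q.rT ^ 2 / 128 * (d.N q z + Gn q d z) ^ 2 ≤ d.sy.F (d.W q) z := by
    have h1 := (sy_form hg h (fun i => d.sy.D i (d.W q) z) z).1
    have h2 : (q.rT / 8 * (d.N q z + Gn q d z)) ^ 2 < ∑ i, d.sy.D i (d.W q) z ^ 2 := by
      rw [← hNG]; exact hy
    have h3 : d.sy.F (d.W q) z = ∑ i, ∑ j, d.sy.s i j z * d.sy.D i (d.W q) z *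
        d.sy.D j (d.W q) z := rfl
    rw [h3]
    nlinarith
  have hmn : 0 ≤ H747.A.mA μ₀ q d z := by
    refine le_trans ?_ hmm
    have : 0 ≤ d.N q z / q.R := by positivity
    positivity
  refine tot_of_B0 (U := Un ((q.c₀ / 2) ^ 2) q d) (C₁ := C₁ q) (m₀ := m₀)
    (c₁ := q.rT ^ 2 / 128) (η0 q) b (ok_x h (Un_open hg h)) (ok_y h (Un_open hg h))
    (fun _ => rfl) (fun _ => rfl) (Lx_x d.s₁ _) (Lx_y d.s₂ _) (W_smU hg h) hU
    (fun A => ?_) (fun A => ?_) hN1 hG hR1 (by linarith [C1 q]) hκ ?_ ?_ hm0 hm1 hmm hFx hFy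
    ?_ ?_
  · refine le_trans ?_ (sx_form hg h A z).1
    exact mul_nonneg (by norm_num) (Finset.sum_nonneg fun i _ => sq_nonneg _)
  · refine le_trans ?_ (sy_form hg h A z).1
    exact mul_nonneg (by norm_num) (Finset.sum_nonneg fun i _ => sq_nonneg _)
  · rw [inv_eq_one_div]
    exact div_le_div_of_nonneg_right (C1 q) (by linarith)
  · have := hg.rT
    positivity
  · rw [Fintype.card_fin]
    refine hK.trans (mul_le_mul_of_nonneg_left hNM ?_)
    have := η0 q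
    have := hg.rT
    positivity
  · intro A B
    have h1 := hcr A B
    have h2 := (sx_form hg h A z).2
    have h3 := (sy_form hg h B z).2
    have e1 : H230.W.dd A A = ∑ i, A i ^ 2 := by
      unfold H230.W.dd
      exact Finset.sum_congr rfl fun i _ => by ring
    have e2 : H230.W.dd B B = ∑ i, B i ^ 2 := by
      unfold H230.W.dd
      exact Finset.sum_congr rfl fun i _ => by ring
    rw [e1, e2] at h1
    have h4 : ss d.sx A z + ss d.sy B z ≤ 2 * (∑ i, A i ^ 2) + 2 * ∑ i, B i ^ 2 :=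
      add_le_add h2 h3
    have h5 := mul_le_mul_of_nonneg_left h4 hmn
    have h6 : 0 ≤ (∑ i, A i ^ 2) + ∑ i, B i ^ 2 := by positivity
    have h7 := mul_nonneg hmn h6
    linarith

end Vale.Agent.P088.R2.H644.Pf
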